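import Mathlib

/-!
# Bounded treewidth: decompositions and connected pieces

The data of a rooted tree decomposition with chains of copies, and reachability in sets of edge
copies.
-/

namespace Vale.Agent.P061.TW

open Finset Classical

/-- A rooted tree decomposition of a multigraph given by the ends of its edge copies; `rk` is the
position in a chain of copies of one bag. -/
structure Dec (V E : Type) [Fintype V] [Fintype E] where
  fst : E → V
  snd : E → V
  k : ℕ
  w : ℕ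
  hk : 1 ≤ k
  conn : ∀ S : Finset V, S.Nonempty → S ≠ Finset.univ →
    k ≤ (Finset.univ.filter fun g => ¬ (fst g ∈ S ↔ snd g ∈ S)).card
  ι : Type
  fι : Fintype ι
  par : ι → Option ι
  ht : ι → ℕ
  ht_lt : ∀ u p, par u = some p → ht u < ht p
  bag : ι → Finset V
  card_bag : ∀ u, (bag u).card ≤ w
  home : E → ι
  home_fst : ∀ g, fst g ∈ bag (home g)
  home_snd : ∀ g, snd g ∈ bag (home g)
  ri : ∀ x u z c p, x ∈ bag u → x ∈ bag z →
    Relation.ReflTransGen (fun a b => par a = some b) u c →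
    ¬ Relation.ReflTransGen (fun a b => par a = some b) z c →
    par c = some p → x ∈ bag c ∧ x ∈ bag p
  root : ι
  le_root : ∀ u, Relation.ReflTransGen (fun a b => par a = some b) u root
  cover : ∀ x, ∃ u, x ∈ bag u
  v₀ : V
  v₀_mem : ∀ u, v₀ ∈ bag u
  rk : ι → ℕ
  rk_step : ∀ c n, rk c = n + 1 → ∃ c', (∀ d, par d = some c ↔ d = c') ∧ rk c' = n ∧
    bag c' = bag c ∧ ∀ g, home g ≠ c
  rk_last : ∀ c, rk c + 1 ≠ w → ∃ p, par c = some p ∧ bag c ⊆ bag p

attribute [instance] Dec.fι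

variable {V E : Type} [Fintype V] [Fintype E]

namespace Dec

variable (D : Dec V E)

/-- `u` lies in the subtree of `c`. -/
def Le (u c : D.ι) : Prop := Relation.ReflTransGen (fun a b => D.par a = some b) u c

theorem le_refl (u : D.ι) : D.Le u u := Relation.ReflTransGen.refl

variable {D} in
theorem Le.trans {a b c : D.ι} (h : D.Le a b) (h' : D.Le b c) : D.Le a c :=
  Relation.ReflTransGen.trans h h'

theorem le_par {u p : D.ι} (h : D.par u = some p) : D.Le u p := Relation.ReflTransGen.single h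

theorem ht_le {u c : D.ι} (h : D.Le u c) : D.ht u ≤ D.ht c := by
  induction h with
  | refl => rfl
  | tail _ h ih => exact ih.trans (D.ht_lt _ _ h).le

theorem ht_lt_of {u c : D.ι} (h : D.Le u c) (hne : u ≠ c) : D.ht u < D.ht c := by
  rcases Relation.ReflTransGen.cases_tail h with h | ⟨d, hd, hdc⟩
  · exact absurd h.symm hne
  · exact (D.ht_le hd).trans_lt (D.ht_lt _ _ hdc)

theorem le_antisymm {u c : D.ι} (h : D.Le u c) (h' : D.Le c u) : u = c := by
  by_contra hne
  exact absurd (D.ht_lt_of h hne) (not_lt.2 (D.ht_le h'))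

theorem comparable {u a b : D.ι} (ha : D.Le u a) (hb : D.Le u b) : D.Le a b ∨ D.Le b a :=
  Relation.ReflTransGen.total_of_right_unique
    (fun _ _ _ h1 h2 => Option.some.inj (h1.symm.trans h2)) ha hb

theorem not_le_child {c d : D.ι} (h : D.par d = some c) : ¬ D.Le c d := fun h' =>
  absurd (D.ht_le h') (not_le.2 (D.ht_lt _ _ h))

theorem le_par_of_ne {d u p : D.ι} (h : D.Le d u) (hne : d ≠ u) (hp : D.par d = some p) :
    D.Le p u := by
  rcases Relation.ReflTransGen.cases_head h with h | ⟨q, hq, hqu⟩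
  · exact absurd h hne
  · rwa [Option.some.inj (hp.symm.trans hq)]

theorem exists_child {u c : D.ι} (h : D.Le u c) (hne : u ≠ c) :
    ∃ d, D.par d = some c ∧ D.Le u d := by
  rcases Relation.ReflTransGen.cases_tail h with h | ⟨d, hd, hdc⟩
  · exact absurd h.symm hne
  · exact ⟨d, hdc, hd⟩

/-- The children of `c`. -/
noncomputable def kids (c : D.ι) : Finset D.ι := univ.filter fun d => D.par d = some c

@[simp] theorem mem_kids {c d : D.ι} : d ∈ D.kids c ↔ D.par d = some c := by simp [kids]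

theorem kid_eq {c d d' u : D.ι} (hd : d ∈ D.kids c) (hd' : d' ∈ D.kids c) (h : D.Le u d)
    (h' : D.Le u d') : d = d' := by
  rw [mem_kids] at hd hd'
  rcases D.comparable h h' with h | h <;> by_contra hne
  · exact D.not_le_child hd' (D.le_par_of_ne h hne hd)
  · exact D.not_le_child hd (D.le_par_of_ne h (Ne.symm hne) hd')

/-- The nodes of the subtree of `c`. -/
noncomputable def below (c : D.ι) : Finset D.ι := univ.filter fun u => D.Le u c

@[simp] theorem mem_below {c u : D.ι} : u ∈ D.below c ↔ D.Le u c := by simp [below]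

/-- The vertices of the subtree of `c`. -/
noncomputable def Vs (c : D.ι) : Finset V := (D.below c).biUnion D.bag

theorem mem_Vs {c : D.ι} {x : V} : x ∈ D.Vs c ↔ ∃ u, D.Le u c ∧ x ∈ D.bag u := by simp [Vs]

theorem bag_sub_Vs (c : D.ι) : D.bag c ⊆ D.Vs c := fun _ h => D.mem_Vs.2 ⟨c, D.le_refl c, h⟩

theorem Vs_mono {u c : D.ι} (h : D.Le u c) : D.Vs u ⊆ D.Vs c := fun _ hx =>
  let ⟨v, hv, hx⟩ := D.mem_Vs.1 hx
  D.mem_Vs.2 ⟨v, hv.trans h, hx⟩

theorem mem_Vs_cases {c : D.ι} {x : V} (hx : x ∈ D.Vs c) :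
    x ∈ D.bag c ∨ ∃ d ∈ D.kids c, x ∈ D.Vs d := by
  obtain ⟨u, hu, hx⟩ := D.mem_Vs.1 hx
  by_cases h : u = c
  · exact Or.inl (h ▸ hx)
  · obtain ⟨d, hd, hud⟩ := D.exists_child hu h
    exact Or.inr ⟨d, D.mem_kids.2 hd, D.mem_Vs.2 ⟨u, hud, hx⟩⟩

theorem Vs_root (x : V) : x ∈ D.Vs D.root :=
  let ⟨u, hu⟩ := D.cover x
  D.mem_Vs.2 ⟨u, D.le_root u, hu⟩

/-- The vertices shared by `c` and its parent. -/
noncomputable def I (c : D.ι) : Finset V :=
  univ.filter fun x => x ∈ D.bag c ∧ ∃ p, D.par c = some p ∧ x ∈ D.bag p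

theorem I_sub (c : D.ι) : D.I c ⊆ D.bag c := fun x hx => by
  simp only [I, mem_filter] at hx; exact hx.2.1

theorem I_sub_par {c p : D.ι} (h : D.par c = some p) : D.I c ⊆ D.bag p := fun x hx => by
  simp only [I, mem_filter] at hx
  obtain ⟨-, -, q, hq, hx⟩ := hx
  rwa [Option.some.inj (h.symm.trans hq)]

theorem mem_I_of {c z : D.ι} {x : V} (hx : x ∈ D.Vs c) (hz : x ∈ D.bag z) (hn : ¬ D.Le z c) :
    x ∈ D.I c := by
  obtain ⟨u, hu, hxu⟩ := D.mem_Vs.1 hx
  cases hp : D.par c with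
  | none =>
    have : c = D.root := by
      rcases Relation.ReflTransGen.cases_head (D.le_root c) with h | ⟨q, hq, -⟩
      · exact h
      · rw [hp] at hq; exact absurd hq (by simp)
    exact absurd (this ▸ D.le_root z) hn
  | some p =>
    obtain ⟨h1, h2⟩ := D.ri x u z c p hxu hz hu hn hp
    simp [I, h1, h2, hp]

theorem v₀_mem_I {c p : D.ι} (h : D.par c = some p) : D.v₀ ∈ D.I c := by
  simp [I, D.v₀_mem, h]

theorem mem_I_kids {c d d' : D.ι} (hd : d ∈ D.kids c) (hd' : d' ∈ D.kids c) (hne : d ≠ d')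
    {x : V} (hx : x ∈ D.Vs d) (hx' : x ∈ D.Vs d') : x ∈ D.I d := by
  obtain ⟨u, hu, hxu⟩ := D.mem_Vs.1 hx'
  exact D.mem_I_of hx hxu fun h => hne (D.kid_eq hd hd' h hu)

theorem mem_I_bag {c d : D.ι} (hd : d ∈ D.kids c) {x : V} (hx : x ∈ D.Vs d)
    (hc : x ∈ D.bag c) : x ∈ D.I d :=
  D.mem_I_of hx hc (D.not_le_child (D.mem_kids.1 hd))

theorem le_home {c : D.ι} {g : E} {x : V} (hg : D.fst g = x ∨ D.snd g = x) (hx : x ∈ D.Vs c)
    (hI : x ∉ D.I c) : D.Le (D.home g) c := by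
  by_contra h
  refine hI (D.mem_I_of hx ?_ h)
  rcases hg with rfl | rfl
  exacts [D.home_fst g, D.home_snd g]

theorem ends_Vs {c : D.ι} {g : E} (h : D.Le (D.home g) c) :
    D.fst g ∈ D.Vs c ∧ D.snd g ∈ D.Vs c :=
  ⟨D.mem_Vs.2 ⟨_, h, D.home_fst g⟩, D.mem_Vs.2 ⟨_, h, D.home_snd g⟩⟩

/-- The graph of a set of edge copies. -/
def G (F : Finset E) : SimpleGraph V :=
  SimpleGraph.fromEdgeSet ((fun g => s(D.fst g, D.snd g)) '' (F : Set E))

/-- Two vertices are joined by the copies in `F`. -/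
def R (F : Finset E) (x y : V) : Prop := (D.G F).Reachable x y

theorem R_refl (F : Finset E) (x : V) : D.R F x x := SimpleGraph.Reachable.refl _

variable {D} in
theorem R.symm {F : Finset E} {x y : V} (h : D.R F x y) : D.R F y x :=
  SimpleGraph.Reachable.symm h

variable {D} in
theorem R.trans {F : Finset E} {x y z : V} (h : D.R F x y) (h' : D.R F y z) : D.R F x z :=
  SimpleGraph.Reachable.trans h h'

theorem R_edge {F : Finset E} {g : E} (hg : g ∈ F) : D.R F (D.fst g) (D.snd g) := by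
  by_cases h : D.fst g = D.snd g
  · rw [h]; exact D.R_refl _ _
  · exact SimpleGraph.Adj.reachable ((SimpleGraph.fromEdgeSet_adj _).2 ⟨⟨g, hg, rfl⟩, h⟩)

theorem R_induct {F : Finset E} {x y : V} (h : D.R F x y) (p : V → Prop)
    (hp : ∀ g ∈ F, D.R F x (D.fst g) → (p (D.fst g) ↔ p (D.snd g))) (hx : p x) : p y := by
  rw [R, SimpleGraph.reachable_iff_reflTransGen] at h
  induction h with
  | refl => exact hx
  | @tail b c hb hbc ih =>
    have hxb : D.R F x b := (SimpleGraph.reachable_iff_reflTransGen _ _).2 hb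
    obtain ⟨⟨g, hg, hgs⟩, -⟩ := (SimpleGraph.fromEdgeSet_adj _).1 hbc
    rcases Sym2.eq_iff.1 hgs with ⟨h1, h2⟩ | ⟨h1, h2⟩
    · have := hp g hg (by rw [h1]; exact hxb)
      rw [h1, h2] at this
      exact this.1 ih
    · have := hp g hg (hxb.trans (by rw [← h2]; exact (D.R_edge hg).symm))
      rw [h1, h2] at this
      exact this.2 ih

theorem R_of_edges {F F' : Finset E} (h : ∀ g ∈ F, D.R F' (D.fst g) (D.snd g)) {x y : V}
    (hr : D.R F x y) : D.R F' x y :=
  D.R_induct hr (D.R F' x) (fun g hg _ => ⟨fun a => a.trans (h g hg),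
    fun a => a.trans (h g hg).symm⟩) (D.R_refl _ _)

variable {D} in
theorem R.mono {F F' : Finset E} {x y : V} (hr : D.R F x y) (h : F ⊆ F') : D.R F' x y :=
  D.R_of_edges (fun _ hg => D.R_edge (h hg)) hr

/-- The piece of `x`. -/
noncomputable def comp (F : Finset E) (x : V) : Finset V := univ.filter (D.R F x)

@[simp] theorem mem_comp {F : Finset E} {x y : V} : y ∈ D.comp F x ↔ D.R F x y := by simp [comp]

theorem self_comp (F : Finset E) (x : V) : x ∈ D.comp F x := D.mem_comp.2 (D.R_refl _ _)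

theorem comp_eq {F : Finset E} {x y : V} (h : D.R F x y) : D.comp F x = D.comp F y := by
  ext z; simp only [mem_comp]
  exact ⟨fun a => h.symm.trans a, fun a => h.trans a⟩

theorem comp_edge {F : Finset E} {g : E} (hg : g ∈ F) {x : V} :
    D.fst g ∈ D.comp F x ↔ D.snd g ∈ D.comp F x := by
  simp only [mem_comp]
  exact ⟨fun a => a.trans (D.R_edge hg), fun a => a.trans (D.R_edge hg).symm⟩

/-- The number of edge copies from `x` leaving `Q`. -/
noncomputable def dg (Q : Finset V) (x : V) : ℕ :=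
  (univ.filter fun g => D.fst g = x ∧ D.snd g ∉ Q ∨ D.snd g = x ∧ D.fst g ∉ Q).card

theorem dg_anti {Q Q' : Finset V} (h : Q' ⊆ Q) (x : V) : D.dg Q x ≤ D.dg Q' x :=
  card_le_card fun g => by
    simp only [mem_filter, mem_univ, true_and]
    exact Or.imp (fun a => ⟨a.1, fun b => a.2 (h b)⟩) (fun a => ⟨a.1, fun b => a.2 (h b)⟩)

/-- Copies leaving `Q` at a vertex of `A` are counted by `dg`. -/
theorem card_le_sum_dg {Q A : Finset V} {X : Finset E}
    (h : ∀ g ∈ X, D.fst g ∈ A ∧ D.snd g ∉ Q ∨ D.snd g ∈ A ∧ D.fst g ∉ Q) :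
    X.card ≤ ∑ x ∈ A, D.dg Q x := by
  refine le_trans (card_le_card (t := A.biUnion fun x => univ.filter fun g =>
    D.fst g = x ∧ D.snd g ∉ Q ∨ D.snd g = x ∧ D.fst g ∉ Q) fun g hg => ?_) card_biUnion_le
  simp only [mem_biUnion, mem_filter, mem_univ, true_and]
  rcases h g hg with ⟨a, b⟩ | ⟨a, b⟩
  · exact ⟨_, a, Or.inl ⟨rfl, b⟩⟩
  · exact ⟨_, a, Or.inr ⟨rfl, b⟩⟩

theorem sum_dg_le {Q A : Finset V} (hA : A ⊆ Q) {X : Finset E}
    (h : ∀ g, D.fst g ∈ A ∧ D.snd g ∉ Q ∨ D.snd g ∈ A ∧ D.fst g ∉ Q → g ∈ X) :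
    ∑ x ∈ A, D.dg Q x ≤ X.card := by
  simp only [dg]
  rw [← card_biUnion]
  · refine card_le_card fun g hg => ?_
    simp only [mem_biUnion, mem_filter, mem_univ, true_and] at hg
    obtain ⟨x, hx, ⟨a, b⟩ | ⟨a, b⟩⟩ := hg
    · exact h g (Or.inl ⟨a ▸ hx, b⟩)
    · exact h g (Or.inr ⟨a ▸ hx, b⟩)
  · intro x hx y hy hne
    refine disjoint_left.2 fun g hg hg' => ?_
    simp only [mem_filter, mem_univ, true_and] at hg hg'
    rcases hg with ⟨a, b⟩ | ⟨a, b⟩ <;> rcases hg' with ⟨a', b'⟩ | ⟨a', b'⟩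
    · exact hne (a ▸ a')
    · exact b (a' ▸ hA hy)
    · exact b (a' ▸ hA hy)
    · exact hne (a ▸ a')

/-- A sum over covered points is at most the sum over the covering sets. -/
theorem sum_le_cover {J : Type} {S : Finset V} {f : V → ℕ} {P : Finset J} {A : J → Finset V}
    {h : J → V → ℕ} (hcov : ∀ x ∈ S, ∃ j ∈ P, x ∈ A j ∧ f x ≤ h j x) :
    ∑ x ∈ S, f x ≤ ∑ j ∈ P, ∑ x ∈ A j, h j x := by
  calc ∑ x ∈ S, f x ≤ ∑ x ∈ S, ∑ j ∈ P, if x ∈ A j then h j x else 0 := by
        refine sum_le_sum fun x hx => ?_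
        obtain ⟨j, hj, hxj, hf⟩ := hcov x hx
        refine hf.trans (le_trans ?_ (single_le_sum (fun i _ => Nat.zero_le _) hj))
        simp [hxj]
    _ = ∑ j ∈ P, ∑ x ∈ S, if x ∈ A j then h j x else 0 := sum_comm
    _ ≤ _ := by
        refine sum_le_sum fun j _ => ?_
        rw [← sum_filter]
        exact sum_le_sum_of_subset fun x hx => (mem_filter.1 hx).2

end Dec

end Vale.Agent.P061.TW
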