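import Vale.Agent.P061.TW.Post

/-!
# Bounded treewidth: the kept copy of a bundle

Few different sets of crossed copies come from cuts with a small gain, so some copy of each bundle
is crossed only by cuts with a large gain. One such copy from each bundle gives a thin tree.
-/

namespace Vale.Agent.P061.TW.Dec

open Finset Classical

variable {V E : Type} [Fintype V] [Fintype E] (D : Dec V E)

/-- The constant of the choice. -/
def cst : ℕ := 25 * 2 ^ D.w * D.w

theorem one_le_w : 1 ≤ D.w :=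
  (card_pos.2 ⟨_, D.v₀_mem D.root⟩ : 0 < (D.bag D.root).card).trans_le (D.card_bag _)

theorem total_weight {t : D.ι} {K L : Finset V} (hev : D.Ev t K L) :
    ∑ x ∈ K ∪ L, D.wt (D.I t) (K ∪ L) x ≤ 3 * D.w * D.w * (D.B t).card := by
  set P := K ∪ L with hPdef
  obtain ⟨a, ha, haK⟩ := mem_image.1 hev.hK
  obtain ⟨b, hb, hbL⟩ := mem_image.1 hev.hL
  rw [← sum_filter_add_sum_filter_not P (fun x => x ∈ D.I t)]
  have h1 : ∑ x ∈ P.filter (fun x => x ∈ D.I t), D.wt (D.I t) P x ≤ D.w * D.k := by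
    refine (sum_le_card_nsmul _ _ D.k fun x hx => ?_).trans ?_
    · rw [D.wt_of_mem (mem_filter.1 hx).2]
    · rw [smul_eq_mul]
      refine Nat.mul_le_mul_right _ ((card_le_card fun x hx => (mem_filter.1 hx).2).trans ?_)
      exact (card_le_card (D.I_sub t)).trans (D.card_bag t)
  have h2 : ∑ x ∈ P.filter (fun x => x ∉ D.I t), D.wt (D.I t) P x ≤
      D.w * (D.w * (D.B t).card + D.w * (D.B t).card) := by
    rw [sum_congr rfl fun x hx => D.wt_of_notMem (mem_filter.1 hx).2 P, ← mul_sum,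
      D.sum_dg_out (A := P.filter fun x => x ∉ D.I t) (filter_subset _ _)]
    refine Nat.mul_le_mul_left _ ?_
    set far := fun v : V => ((D.bag t).filter fun y => ¬ D.R (D.Fm t) v y).biUnion
      fun y => D.bundle t (D.Fm t) (v, y)
    have hfar : ∀ v ∈ D.bag t, (far v).card ≤ D.w * (D.B t).card := fun v hv => by
      refine (card_biUnion_le_card_mul _ _ (D.B t).card fun y hy => ?_).trans
        (Nat.mul_le_mul_right _ ((card_filter_le _ _).trans (D.card_bag t)))
      exact hev.max v hv y (mem_filter.1 hy).1 (mem_filter.1 hy).2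
    refine le_trans (card_le_card (t := far a ∪ far b) fun g hg => ?_)
      ((card_union_le _ _).trans (Nat.add_le_add (hfar a ha) (hfar b hb)))
    have inner : ∀ c z, (D.fst g = c ∧ D.snd g = z ∨ D.fst g = z ∧ D.snd g = c) →
        c ∈ P.filter (fun x => x ∉ D.I t) → z ∉ P → g ∈ far a ∪ far b := by
      intro c z hcz hc hz
      obtain ⟨hcP, hcI⟩ := mem_filter.1 hc
      have hle : D.Le (D.home g) t :=
        D.le_home (x := c) (hcz.imp (·.1) (·.2)) (D.pcs_sub_Vs hev.mem hcP) hcI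
      obtain ⟨y, hy, hzy⟩ := D.meets_pre (c := t) (x := z) (by
        rcases hcz with ⟨-, e⟩ | ⟨e, -⟩ <;> rw [← e]
        exacts [(D.ends_Vs hle).2, (D.ends_Vs hle).1])
      have key : ∀ v, D.comp (D.Fm t) v ⊆ P → D.R (D.Fm t) v c → g ∈ far v := fun v hvP hvc => by
        refine mem_biUnion.2 ⟨y, mem_filter.2 ⟨hy,
          fun h => hz (hvP (D.mem_comp.2 (h.trans hzy.symm)))⟩,
          mem_filter.2 ⟨mem_univ _, hle, ?_⟩⟩
        rcases hcz with ⟨e1, e2⟩ | ⟨e1, e2⟩ <;> rw [e1, e2]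
        exacts [Or.inl ⟨hvc, hzy.symm⟩, Or.inr ⟨hvc, hzy.symm⟩]
      rcases mem_union.1 hcP with h | h
      · exact mem_union_left _ (key a (haK ▸ subset_union_left) (D.mem_comp.1 (haK ▸ h)))
      · exact mem_union_right _ (key b (hbL ▸ subset_union_right) (D.mem_comp.1 (hbL ▸ h)))
    rcases D.mem_out.1 hg with ⟨h, h'⟩ | ⟨h, h'⟩
    · exact inner _ _ (Or.inl ⟨rfl, rfl⟩) h h'
    · exact inner _ _ (Or.inr ⟨rfl, rfl⟩) h h'
  refine (Nat.add_le_add h1 h2).trans ?_
  have h3 := Nat.mul_le_mul_left D.w hev.heavy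
  calc D.w * D.k + D.w * (D.w * (D.B t).card + D.w * (D.B t).card)
      ≤ D.w * (D.w * (D.B t).card) + D.w * (D.w * (D.B t).card + D.w * (D.B t).card) :=
        Nat.add_le_add_right h3 _
    _ = _ := by ring

/-- A family of sets of weight `k / 4` in which no point is covered more than `m` times. -/
theorem card_family_le {J : Type} {Fam : Finset J} {S : J → Finset V} {P : Finset V} {w : V → ℕ}
    {k m : ℕ} (hS : ∀ j ∈ Fam, S j ⊆ P) (hk : ∀ j ∈ Fam, k ≤ 4 * ∑ x ∈ S j, w x)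
    (hm : ∀ x ∈ P, (Fam.filter fun j => x ∈ S j).card ≤ m) :
    Fam.card * k ≤ 4 * m * ∑ x ∈ P, w x := by
  have h1 : Fam.card * k ≤ ∑ j ∈ Fam, 4 * ∑ x ∈ S j, w x := by
    rw [← smul_eq_mul]; exact card_nsmul_le_sum _ _ _ hk
  refine h1.trans ?_
  rw [← mul_sum, mul_assoc]
  refine Nat.mul_le_mul_left _ ?_
  calc ∑ j ∈ Fam, ∑ x ∈ S j, w x = ∑ j ∈ Fam, ∑ x ∈ P, if x ∈ S j then w x else 0 := by
        refine sum_congr rfl fun j hj => ?_
        rw [← sum_filter]
        exact sum_congr (by ext x; simpa using fun h => hS j hj h) fun _ _ => rfl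
    _ = ∑ x ∈ P, (Fam.filter fun j => x ∈ S j).card * w x := by
        rw [sum_comm]
        simp [← sum_filter]
    _ ≤ ∑ x ∈ P, m * w x := sum_le_sum fun x hx => Nat.mul_le_mul_right _ (hm x hx)
    _ = _ := (mul_sum _ _ _).symm

/-- Some copy of the bundle of `t` is crossed only with a large gain. -/
theorem exists_good {t : D.ι} (ht : (D.B t).Nonempty) :
    ∃ e ∈ D.B t, ∀ σ : V → Bool, σ (D.fst e) ≠ σ (D.snd e) → D.k ≤ D.cst * D.WR σ t := by
  have hts := D.self_span t ht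
  obtain ⟨b, st, hW, hSt, hside⟩ := D.build t _ t (Nat.lt_succ_self _) hts
  obtain ⟨K, L, hev, hside⟩ := hside ht
  set P := K ∪ L with hPdef
  have hI : D.I t = D.bag t := D.event_I ht
  have hC : 4 ≤ D.cst := by
    have := Nat.one_le_two_pow (n := D.w)
    have := D.one_le_w
    calc 4 ≤ 25 * 1 * 1 := by norm_num
      _ ≤ _ := by rw [cst]; gcongr
  have small : ∀ {σ}, D.cst * D.WR σ t < D.k → D.Small t σ := fun {σ} h =>
    lt_of_le_of_lt (Nat.mul_le_mul_right _ hC) h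
  have hends : ∀ g ∈ D.B t, D.fst g ∈ P ∧ D.snd g ∈ P ∧
      D.pi t (D.fst g) = D.fst g ∧ D.pi t (D.snd g) = D.snd g := by
    intro g hg
    have hh : D.home g ∈ D.span t := D.mem_span.2 ⟨D.le_home_B hg, g, hg, D.le_refl _⟩
    have hR := D.bag_sub_RV t hh
    refine ⟨?_, ?_, D.pi_of_mem t (hR (D.home_fst g)), D.pi_of_mem t (hR (D.home_snd g))⟩ <;>
      rcases hev.between g hg with ⟨a, b⟩ | ⟨a, b⟩
    exacts [mem_union_left _ a, mem_union_right _ a, mem_union_right _ b, mem_union_left _ b]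
  have hcr : ∀ σ, D.w * D.cr σ t ≤ D.WR σ t := fun σ =>
    (D.cr_le_W σ t).trans (single_le_sum (fun u _ => Nat.zero_le _) hts)
  set S := univ.filter fun σ : V → Bool => D.cst * D.WR σ t < D.k ∧ st σ P ≠ none with hSdef
  have hmain : ∀ σ ∈ S, ∃ M : Bool, ∀ g ∈ D.B t, σ (D.fst g) = σ (D.snd g) → σ (D.fst g) = M := by
    intro σ hσ
    obtain ⟨s, hs⟩ := hside σ (small (mem_filter.1 hσ).2.1)
    refine ⟨s, fun g hg e => ?_⟩
    obtain ⟨-, -, h1, h2⟩ := hends g hg
    rcases hs with hs | hs <;> rcases hev.between g hg with ⟨a, c⟩ | ⟨a, c⟩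
    · rw [← h1]; exact hs _ a
    · rw [e, ← h2]; exact hs _ c
    · rw [e, ← h2]; exact hs _ c
    · rw [← h1]; exact hs _ a
  choose! M hM using hmain
  set Y := fun σ : V → Bool => P.filter fun x => σ (D.pi t x) ≠ M σ with hY
  set X := fun A : Finset V => (D.B t).filter fun g => D.fst g ∈ A ∨ D.snd g ∈ A with hX
  have hXY : ∀ σ ∈ S, (D.B t).filter (fun g => σ (D.fst g) ≠ σ (D.snd g)) = X (Y σ) := by
    intro σ hσ
    refine filter_congr fun g hg => ?_
    obtain ⟨p1, p2, h1, h2⟩ := hends g hg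
    simp only [hY, mem_filter, p1, p2, true_and, h1, h2]
    refine ⟨fun h => ?_, fun h e => ?_⟩
    · by_contra hn
      push Not at hn
      exact h (hn.1.trans hn.2.symm)
    · have := hM σ hσ g hg e
      rcases h with h | h
      · exact h this
      · exact h (e ▸ this)
  have hsm : ∀ σ ∈ S, D.Small t σ := fun σ hσ => small (mem_filter.1 hσ).2.1
  have horig : ∀ σ ∈ S, ∃ o, st σ P = some o := fun σ hσ =>
    Option.ne_none_iff_exists'.1 (mem_filter.1 hσ).2.2
  have hne : Nonempty (D.ι × Finset V) := ⟨(t, P)⟩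
  choose! org horg using horig
  have hcommon : ∀ σ ∈ S, ∀ σ' ∈ S, ∃ g ∈ D.B t, σ (D.fst g) = M σ ∧ σ' (D.fst g) = M σ' := by
    intro σ hσ σ' hσ'
    by_contra hc
    push Not at hc
    have hsub : D.B t ⊆ (D.B t).filter (fun g => σ (D.fst g) ≠ σ (D.snd g)) ∪
        (D.B t).filter (fun g => σ' (D.fst g) ≠ σ' (D.snd g)) := fun g hg => by
      by_contra hn
      simp only [mem_union, mem_filter, hg, true_and, not_or, not_not] at hn
      exact hc g hg (hM σ hσ g hg hn.1) (hM σ' hσ' g hg hn.2)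
    have h1 := Nat.mul_le_mul_left D.w ((card_le_card hsub).trans (card_union_le _ _))
    rw [mul_add] at h1
    change D.w * (D.B t).card ≤ D.w * D.cr σ t + D.w * D.cr σ' t at h1
    have := hcr σ; have := hcr σ'; have := hev.heavy
    have s1 := hsm σ hσ; have s2 := hsm σ' hσ'
    simp only [Small] at s1 s2
    omega
  have hsame : ∀ σ ∈ S, ∀ σ' ∈ S, org σ = org σ' →
      (∀ x ∈ D.anchor t (org σ), σ x = σ' x) → Y σ = Y σ' := by
    intro σ hσ σ' hσ' he hA
    have hq := hSt.eqv σ σ' (hsm σ hσ) (hsm σ' hσ') P hev.mem _ (horg σ hσ)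
      (Or.inr (he ▸ horg σ' hσ')) hA
    obtain ⟨g, hg, e, e'⟩ := hcommon σ hσ σ' hσ'
    obtain ⟨p1, -, h1, -⟩ := hends g hg
    have hMM : M σ = M σ' := by rw [← e, ← e', ← h1]; exact hq _ p1
    exact filter_congr fun x hx => by rw [hq x hx, hMM]
  have hnest : ∀ σ ∈ S, ∀ σ' ∈ S, org σ ≠ org σ' → ∀ x, x ∈ Y σ → x ∈ Y σ' →
      Y σ ⊆ Y σ' ∨ Y σ' ⊆ Y σ := by
    intro σ hσ σ' hσ' hne x hx hx'
    obtain ⟨s, s', hf, -, -⟩ :=
      hSt.forb σ σ' (hsm σ hσ) (hsm σ' hσ') P hev.mem _ _ (horg σ hσ) (horg σ' hσ') hne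
    obtain ⟨g, hg, e, e'⟩ := hcommon σ hσ σ' hσ'
    obtain ⟨p1, -, h1, -⟩ := hends g hg
    have hno := hf _ p1
    rw [h1, e, e'] at hno
    simp only [hY, mem_filter] at hx hx' ⊢
    by_cases hs : s = M σ
    · refine Or.inr fun z hz => ?_
      simp only [mem_filter] at hz ⊢
      refine ⟨hz.1, fun h => hf z hz.1 ⟨h.trans hs.symm, ?_⟩⟩
      have : s' ≠ M σ' := fun h' => hno ⟨hs.symm, h'.symm⟩
      exact (Bool.eq_not_of_ne hz.2).trans (Bool.eq_not_of_ne this).symm
    have hs1 : s = !M σ := Bool.eq_not_of_ne hs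
    by_cases hs' : s' = M σ'
    · refine Or.inl fun z hz => ?_
      simp only [mem_filter] at hz ⊢
      exact ⟨hz.1, fun h => hf z hz.1 ⟨(Bool.eq_not_of_ne hz.2).trans hs1.symm, h.trans hs'.symm⟩⟩
    · exact absurd ⟨(Bool.eq_not_of_ne hx.2).trans hs1.symm,
        (Bool.eq_not_of_ne hx'.2).trans (Bool.eq_not_of_ne hs').symm⟩ (hf x hx.1)
  -- each such cut has a heavy set
  have hheavy : ∀ σ ∈ S, D.k ≤ 4 * (∑ z ∈ Y σ, D.wt (D.I t) P z) ∨
      D.k ≤ 4 * ∑ z ∈ D.hid t (org σ), D.wt (D.I t) P z := by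
    intro σ hσ
    obtain ⟨ht1, -, -⟩ := hSt.tnt σ (hsm σ hσ) P hev.mem _ (horg σ hσ)
    have h1 := hW.cap (σ := σ) (Q := P) hev.mem
    have h2 := D.phi_le_side σ (!M σ) (D.I t) P
    have h3 : D.side σ (!M σ) (D.I t) P ≤ ∑ z ∈ Y σ, D.wt (D.I t) P z +
        (∑ z ∈ D.hid t (org σ), D.wt (D.I t) P z + D.fw t σ (D.hid t (org σ)) P) := by
      have hf : D.fw t σ (D.hid t (org σ)) P =
          ∑ z ∈ D.odd t σ (D.hid t (org σ)) P, D.wt (D.I t) P z := by
        refine sum_congr rfl fun z hz => (D.wt_of_notMem (fun h => ?_) _).symm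
        refine (mem_filter.1 hz).2.2 (by rw [D.pi_of_mem t (D.bag_sub_RV t hts (D.I_sub t h))])
      rw [hf]
      refine le_trans (sum_le_sum_of_subset (t := Y σ ∪ (D.hid t (org σ) ∪
        D.odd t σ (D.hid t (org σ)) P)) fun z hz => ?_) ?_
      · obtain ⟨hzP, hzs⟩ := mem_filter.1 hz
        by_cases h : σ (D.pi t z) = M σ
        · refine mem_union_right _ ?_
          by_cases hH : z ∈ D.hid t (org σ)
          · exact mem_union_left _ hH
          · refine mem_union_right _ (mem_filter.2 ⟨hzP, hH, ?_⟩)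
            rw [h, hzs]; simp
        · exact mem_union_left _ (mem_filter.2 ⟨hzP, h⟩)
      · refine le_trans (Nat.le.intro sum_union_inter) (Nat.add_le_add_left ?_ _)
        exact Nat.le.intro sum_union_inter
    have h4 := hsm σ hσ
    simp only [Small] at h4
    omega
  -- few sets of crossed copies
  set FH := (S.filter fun σ =>
    D.k ≤ 4 * ∑ z ∈ D.hid t (org σ), D.wt (D.I t) P z).image Y with hFH
  set FY₀ := (S.filter fun σ => D.k ≤ 4 * ∑ z ∈ Y σ, D.wt (D.I t) P z).image Y with hFY₀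
  set FY := FY₀.filter fun A => ∀ A' ∈ FY₀, A ⊆ A' → A = A' with hFY
  have hrep : ∀ A ∈ FH, ∃ σ, (σ ∈ S ∧
      D.k ≤ 4 * ∑ z ∈ D.hid t (org σ), D.wt (D.I t) P z) ∧ Y σ = A := fun A hA => by
    obtain ⟨σ, hσ, he⟩ := mem_image.1 hA
    exact ⟨σ, mem_filter.1 hσ, he⟩
  choose! r hr hrY using hrep
  have hrep' : ∀ A ∈ FY₀, ∃ σ, (σ ∈ S ∧ D.k ≤ 4 * ∑ z ∈ Y σ, D.wt (D.I t) P z) ∧ Y σ = A :=
    fun A hA => by
      obtain ⟨σ, hσ, he⟩ := mem_image.1 hA
      exact ⟨σ, mem_filter.1 hσ, he⟩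
  choose! r' hr' hrY' using hrep'
  have hmult : ∀ (Fam : Finset (Finset V)) (ρ : Finset V → V → Bool),
      (∀ A ∈ Fam, ρ A ∈ S ∧ Y (ρ A) = A) →
      (∀ A ∈ Fam, ∀ A' ∈ Fam, A ≠ A' → org (ρ A) = org (ρ A')) →
      Fam.card ≤ 2 ^ D.w := by
    intro Fam ρ hρ ho
    rcases Fam.eq_empty_or_nonempty with h | ⟨A₀, hA₀⟩
    · rw [h, card_empty]; exact Nat.zero_le _
    refine (card_le_card_of_injOn (t := (D.anchor t (org (ρ A₀))).powerset)
      (fun A => (D.anchor t (org (ρ A₀))).filter fun z => ρ A z = true)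
      (fun A _ => mem_coe.2 (mem_powerset.2 (filter_subset _ _))) fun A hA A' hA' he => ?_).trans ?_
    · by_contra hne
      refine hne ?_
      have hA := mem_coe.1 hA
      have hA' := mem_coe.1 hA'
      rw [← (hρ A hA).2, ← (hρ A' hA').2]
      have hoA : org (ρ A) = org (ρ A₀) := by
        by_cases h : A = A₀
        · rw [h]
        · exact ho A hA A₀ hA₀ h
      refine hsame _ (hρ A hA).1 _ (hρ A' hA').1 (ho A hA A' hA' hne) fun z hz => ?_
      rw [hoA] at hz
      have := congrArg (fun s => z ∈ s) he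
      simp only [mem_filter, hz, true_and, eq_iff_iff] at this
      exact Bool.eq_iff_iff.2 this
    · rw [card_powerset]
      exact Nat.pow_le_pow_right two_pos
        ((card_le_card inter_subset_left).trans (D.card_bag _))
  have hbH : FH.card * D.k ≤ 4 * 2 ^ D.w * ∑ z ∈ P, D.wt (D.I t) P z := by
    refine card_family_le (S := fun A => D.hid t (org (r A))) (fun A hA => ?_)
      (fun A hA => (hr A hA).2) fun z _ => hmult _ r (fun A hA => ?_) fun A hA A' hA' _ => ?_
    · obtain ⟨-, -, h⟩ := hSt.tnt _ (hsm _ (hr A hA).1) P hev.mem _ (horg _ (hr A hA).1)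
      exact (D.hid_sub t _).trans h
    · exact ⟨(hr A (mem_filter.1 hA).1).1, hrY A (mem_filter.1 hA).1⟩
    · obtain ⟨hA, hz⟩ := mem_filter.1 hA
      obtain ⟨hA', hz'⟩ := mem_filter.1 hA'
      by_contra hne
      exact D.hid_disjoint t
        (hSt.tnt _ (hsm _ (hr A hA).1) P hev.mem _ (horg _ (hr A hA).1)).2.1
        (hSt.tnt _ (hsm _ (hr A' hA').1) P hev.mem _ (horg _ (hr A' hA').1)).2.1 hne hz hz'
  have hbY : FY.card * D.k ≤ 4 * 2 ^ D.w * ∑ z ∈ P, D.wt (D.I t) P z := by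
    refine card_family_le (S := fun A => A) (fun A hA => ?_)
      (fun A hA => ?_) fun z _ => hmult _ r' (fun A hA => ?_) fun A hA A' hA' hAA => ?_
    · rw [← hrY' A (mem_filter.1 hA).1]; exact filter_subset _ _
    · have := (hr' A (mem_filter.1 hA).1).2
      rwa [hrY' A (mem_filter.1 hA).1] at this
    · have hA := (mem_filter.1 (mem_filter.1 hA).1).1
      exact ⟨(hr' A hA).1, hrY' A hA⟩
    · obtain ⟨hA, hz⟩ := mem_filter.1 hA
      obtain ⟨hA', hz'⟩ := mem_filter.1 hA'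
      obtain ⟨h0, hmax⟩ := mem_filter.1 hA
      obtain ⟨h0', hmax'⟩ := mem_filter.1 hA'
      by_contra hne
      have := hnest _ (hr' A h0).1 _ (hr' A' h0').1 hne z
        (by rw [hrY' A h0]; exact hz) (by rw [hrY' A' h0']; exact hz')
      rw [hrY' A h0, hrY' A' h0'] at this
      rcases this with h | h
      · exact hAA (hmax A' h0' h)
      · exact hAA (hmax' A h0 h).symm
  have hcov : ∀ σ ∈ S, (D.B t).filter (fun g => σ (D.fst g) ≠ σ (D.snd g)) ⊆
      (FH ∪ FY).biUnion X := by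
    intro σ hσ g hg
    rw [hXY σ hσ] at hg
    rcases hheavy σ hσ with h | h
    · obtain ⟨A, hAge, hA⟩ :=
        FY₀.exists_le_maximal (mem_image_of_mem Y (mem_filter.2 ⟨hσ, h⟩))
      refine mem_biUnion.2 ⟨A, mem_union_right _
        (mem_filter.2 ⟨hA.1, fun A' hA' h' => subset_antisymm h' (hA.2 hA' h')⟩), ?_⟩
      obtain ⟨hgB, hg⟩ := mem_filter.1 hg
      exact mem_filter.2 ⟨hgB, hg.imp (fun a => hAge a) fun a => hAge a⟩
    · exact mem_biUnion.2
        ⟨Y σ, mem_union_left _ (mem_image_of_mem Y (mem_filter.2 ⟨hσ, h⟩)), hg⟩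
  have hsize : ∀ A ∈ FH ∪ FY, D.cst * D.w * (X A).card ≤ D.k := by
    intro A hA
    obtain ⟨σ, hσ, rfl⟩ : ∃ σ ∈ S, Y σ = A := by
      rcases mem_union.1 hA with hA | hA
      · exact ⟨r A, (hr A hA).1, hrY A hA⟩
      · exact ⟨r' A, (hr' A (mem_filter.1 hA).1).1, hrY' A (mem_filter.1 hA).1⟩
    rw [← hXY σ hσ, mul_assoc]
    exact ((Nat.mul_le_mul_left _ (hcr σ)).trans_lt (mem_filter.1 hσ).2.1).le
  have hlt : ((FH ∪ FY).biUnion X).card < (D.B t).card := by
    by_contra hc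
    push Not at hc
    have h1 : D.cst * D.w * (D.B t).card ≤ (FH ∪ FY).card * D.k := by
      refine (Nat.mul_le_mul_left _ (hc.trans card_biUnion_le)).trans ?_
      rw [mul_sum]
      exact (sum_le_card_nsmul _ _ _ hsize).trans_eq (smul_eq_mul _ _)
    have h2 : (FH ∪ FY).card * D.k ≤ 24 * (2 ^ D.w * D.w * D.w * (D.B t).card) := by
      refine (Nat.mul_le_mul_right _ (card_union_le _ _)).trans ?_
      rw [add_mul]
      refine (Nat.add_le_add hbH hbY).trans ?_
      have := Nat.mul_le_mul_left (8 * 2 ^ D.w) (D.total_weight hev)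
      calc _ = 8 * 2 ^ D.w * ∑ z ∈ P, D.wt (D.I t) P z := by ring
        _ ≤ _ := this
        _ = _ := by ring
    have h3 : D.cst * D.w * (D.B t).card = 25 * (2 ^ D.w * D.w * D.w * (D.B t).card) := by
      rw [cst]; ring
    have h4 : 0 < 2 ^ D.w * D.w * D.w * (D.B t).card := by
      have := D.one_le_w
      have := card_pos.2 ht
      positivity
    omega
  obtain ⟨e, he, hen⟩ := exists_mem_notMem_of_card_lt_card hlt
  refine ⟨e, he, fun σ hσ => ?_⟩
  by_contra hlow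
  push Not at hlow
  by_cases hnone : st σ P = none
  · obtain ⟨s, hs, -⟩ := hSt.uni σ (small hlow) P hev.mem hnone
    obtain ⟨p1, p2, h1, h2⟩ := hends e he
    exact hσ (by rw [← h1, ← h2, hs _ p1, hs _ p2])
  · exact hen (hcov σ (mem_filter.2 ⟨mem_univ _, hlow, hnone⟩) (mem_filter.2 ⟨he, hσ⟩))

/-- Connected copies, crossing every cut at most in proportion. -/
theorem exists_thin : ∃ T : Finset E, (∀ x y, D.R T x y) ∧ ∀ σ : V → Bool,
    D.k * (T.filter fun g => σ (D.fst g) ≠ σ (D.snd g)).card ≤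
      2 * D.cst * D.w * D.w * (univ.filter fun g => σ (D.fst g) ≠ σ (D.snd g)).card := by
  rcases isEmpty_or_nonempty E with hE | hE
  · exact ⟨∅, fun x y => (D.connected_root x y).mono fun g _ => (IsEmpty.false g).elim,
      fun σ => by simp⟩
  choose! e he hcross using fun (t : D.ι) (ht : (D.B t).Nonempty) => D.exists_good ht
  set N := (D.below D.root).filter fun u => (D.B u).Nonempty with hN
  refine ⟨N.image e, fun x y => D.R_of_edges
    (D.R_sel e he _ D.root (Nat.lt_succ_self _)) (D.connected_root x y), fun σ => ?_⟩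
  set Nc := N.filter fun t => σ (D.fst (e t)) ≠ σ (D.snd (e t))
  have h1 : ((N.image e).filter fun g => σ (D.fst g) ≠ σ (D.snd g)).card ≤ Nc.card := by
    rw [filter_image]; exact card_image_le
  have h2 : Nc.card * D.k ≤ ∑ t ∈ Nc, D.cst * D.WR σ t := by
    rw [← smul_eq_mul]
    refine card_nsmul_le_sum _ _ _ fun t ht => ?_
    obtain ⟨ht, hc⟩ := mem_filter.1 ht
    exact hcross t (mem_filter.1 ht).2 σ hc
  have h3 : ∑ t ∈ Nc, D.cst * D.WR σ t ≤ D.cst * ∑ t, D.WR σ t := by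
    rw [← mul_sum]
    exact Nat.mul_le_mul_left _ (sum_le_sum_of_subset (subset_univ _))
  refine (Nat.mul_le_mul_left _ h1).trans ?_
  rw [mul_comm]
  refine (h2.trans (h3.trans (Nat.mul_le_mul_left _ (D.sum_WR σ)))).trans_eq ?_
  ring

end Vale.Agent.P061.TW.Dec
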