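import Vale.Agent.P061.TW.Pot

/-!
# Bounded treewidth: cuts with a small gain in a span

Fix a node `t`. If the gain in the span of `t` is small, each piece is uniform on the vertices of
the span or carries one origin, and two such cuts compare in a simple way.
-/

namespace Vale.Agent.P061.TW.Dec

open Finset Classical

variable {V E : Type} [Fintype V] [Fintype E] (D : Dec V E) (t : D.ι)

/-- The vertices in the bags of the span. -/
noncomputable def RV : Finset V := (D.span t).biUnion D.bag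

/-- A child of the span outside it. -/
def Bdry (d : D.ι) : Prop := d ∉ D.span t ∧ ∃ u ∈ D.span t, D.par d = some u

/-- A port standing for a vertex. -/
noncomputable def pi (x : V) : V :=
  if x ∈ D.RV t then x
  else if h : ∃ z d, D.Bdry t d ∧ x ∈ D.Vs d ∧ z ∈ D.I d ∧ D.R (D.Fp d) x z then h.choose else x

theorem bag_sub_RV {u : D.ι} (hu : u ∈ D.span t) : D.bag u ⊆ D.RV t :=
  subset_biUnion_of_mem D.bag hu

theorem span_up {u v : D.ι} (hu : u ∈ D.span t) (h1 : D.Le u v) (h2 : D.Le v t) :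
    v ∈ D.span t := by
  obtain ⟨-, g, hg, hgu⟩ := D.mem_span.1 hu
  exact D.mem_span.2 ⟨h2, g, hg, hgu.trans h1⟩

theorem self_span (h : (D.B t).Nonempty) : t ∈ D.span t := by
  obtain ⟨g, hg⟩ := h
  exact D.mem_span.2 ⟨D.le_refl t, g, hg, D.le_home_B hg⟩

theorem span_kid {u d : D.ι} (hu : u ∈ D.span t) (hd : d ∈ D.kids u) :
    d ∈ D.span t ∨ D.Bdry t d :=
  (Classical.em (d ∈ D.span t)).imp id fun h => ⟨h, u, hu, D.mem_kids.1 hd⟩

variable {D t}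

theorem Bdry.le {d : D.ι} (h : D.Bdry t d) : D.Le d t := by
  obtain ⟨-, u, hu, hp⟩ := h
  exact (D.le_par hp).trans (D.mem_span.1 hu).1

theorem Bdry.not_le {d u : D.ι} (h : D.Bdry t d) (hu : u ∈ D.span t) : ¬ D.Le u d := fun h' =>
  h.1 (D.span_up t hu h' h.le)

theorem Bdry.mem_I {d : D.ι} (h : D.Bdry t d) {x : V} (hx : x ∈ D.Vs d) (hxR : x ∈ D.RV t) :
    x ∈ D.I d := by
  obtain ⟨u, hu, hxu⟩ := mem_biUnion.1 hxR
  exact D.mem_I_of hx hxu (h.not_le hu)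

theorem Bdry.I_sub {d : D.ι} (h : D.Bdry t d) : D.I d ⊆ D.RV t := by
  obtain ⟨-, u, hu, hp⟩ := h
  exact (D.I_sub_par hp).trans (D.bag_sub_RV t hu)

theorem Bdry.unique {d d' : D.ι} (h : D.Bdry t d) (h' : D.Bdry t d') {x : V}
    (hx : x ∈ D.Vs d) (hx' : x ∈ D.Vs d') (hR : x ∉ D.RV t) : d = d' := by
  obtain ⟨v, hv, hxv⟩ := D.mem_Vs.1 hx'
  have hvd : D.Le v d := by
    by_contra hn
    exact hR (h.I_sub (D.mem_I_of hx hxv hn))
  have key : ∀ a b, D.Bdry t a → D.Bdry t b → D.Le a b → a = b := fun a b ha hb hab => by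
    by_contra hne
    obtain ⟨-, u, hu, hp⟩ := ha
    exact hb.not_le hu (D.le_par_of_ne hab hne hp)
  rcases D.comparable hvd hv with hh | hh
  · exact key d d' h h' hh
  · exact (key d' d h' h hh).symm

theorem Bdry.exists_par {d : D.ι} (h : D.Bdry t d) : ∃ p, D.par d = some p :=
  let ⟨_, u, _, hp⟩ := h
  ⟨u, hp⟩

variable (D t)

theorem exists_bdry {v u : D.ι} (h : D.Le v u) (hu : u ∈ D.span t) (hv : v ∉ D.span t) :
    ∃ d, D.Le v d ∧ D.Le d u ∧ d ≠ u ∧ D.Bdry t d := by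
  induction h using Relation.ReflTransGen.head_induction_on with
  | refl => exact absurd hu hv
  | @head a c hac hcu ih =>
    by_cases hc : c ∈ D.span t
    · refine ⟨a, D.le_refl a, (D.le_par hac).trans hcu, fun e => ?_, hv, c, hc, hac⟩
      subst e; exact absurd hcu (D.not_le_child hac)
    · obtain ⟨d, h1, h2, h3, h4⟩ := ih hc
      exact ⟨d, (D.le_par hac).trans h1, h2, h3, h4⟩

theorem pi_of_mem {x : V} (h : x ∈ D.RV t) : D.pi t x = x := if_pos h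

theorem pi_spec {d : D.ι} (hd : D.Bdry t d) {x : V} (hx : x ∈ D.Vs d) (hR : x ∉ D.RV t) :
    D.pi t x ∈ D.I d ∧ D.R (D.Fp d) x (D.pi t x) := by
  obtain ⟨p, hp⟩ := hd.exists_par
  obtain ⟨y, hy, hxy⟩ := D.meets_post hp hx
  have h : ∃ z d, D.Bdry t d ∧ x ∈ D.Vs d ∧ z ∈ D.I d ∧ D.R (D.Fp d) x z :=
    ⟨y, d, hd, hx, hy, hxy⟩
  rw [pi, if_neg hR, dif_pos h]
  obtain ⟨d', hd', hx', hz, hr⟩ := h.choose_spec
  obtain rfl := hd.unique hd' hx hx' hR
  exact ⟨hz, hr⟩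

theorem pi_bdry {d : D.ι} (hd : D.Bdry t d) {Q : Finset V} (hQ : Q ∈ D.pcs d) {x : V}
    (hx : x ∈ Q) : D.pi t x ∈ Q ∧ D.pi t x ∈ D.I d := by
  have hxV := D.pcs_sub_Vs hQ hx
  by_cases hR : x ∈ D.RV t
  · rw [D.pi_of_mem t hR]; exact ⟨hx, hd.mem_I hxV hR⟩
  · obtain ⟨h1, h2⟩ := D.pi_spec t hd hxV hR
    exact ⟨by rw [D.pcs_eq hQ hx]; exact D.mem_comp.2 h2, h1⟩

theorem pi_R {u : D.ι} (hu : u ∈ D.span t) {x : V} (hx : x ∈ D.Vs u) :
    D.R (D.Fm u) x (D.pi t x) ∧ D.pi t x ∈ D.RV t := by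
  by_cases hR : x ∈ D.RV t
  · rw [D.pi_of_mem t hR]; exact ⟨D.R_refl _ _, hR⟩
  · obtain ⟨v, hv, hxv⟩ := D.mem_Vs.1 hx
    have hvs : v ∉ D.span t := fun h => hR (D.bag_sub_RV t h hxv)
    obtain ⟨d, h1, h2, h3, h4⟩ := D.exists_bdry t hv hu hvs
    obtain ⟨hI, hr⟩ := D.pi_spec t h4 (D.mem_Vs.2 ⟨v, h1, hxv⟩) hR
    exact ⟨hr.mono (D.Fp_sub_Fm h2 h3), h4.I_sub hI⟩

theorem pi_pm {u : D.ι} (hu : u ∈ D.span t) {Q : Finset V} (hQ : Q ∈ D.pm u) {x : V}
    (hx : x ∈ Q) : D.pi t x ∈ Q ∧ D.pi t x ∈ D.RV t := by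
  obtain ⟨h1, h2⟩ := D.pi_R t hu (D.pm_sub_Vs hQ hx)
  exact ⟨by rw [D.pm_eq hQ hx]; exact D.mem_comp.2 h1, h2⟩

theorem pi_pcs {u : D.ι} (hu : u ∈ D.span t) {Q : Finset V} (hQ : Q ∈ D.pcs u) {x : V}
    (hx : x ∈ Q) : D.pi t x ∈ Q ∧ D.pi t x ∈ D.RV t := by
  obtain ⟨h1, h2⟩ := D.pi_R t hu (D.pcs_sub_Vs hQ hx)
  exact ⟨by rw [D.pcs_eq hQ hx]; exact D.mem_comp.2 (h1.mono (D.Fm_sub u)), h2⟩

/-- The copies leaving `Q` at a vertex of `A`. -/
noncomputable def out (Q A : Finset V) : Finset E :=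
  univ.filter fun g => D.fst g ∈ A ∧ D.snd g ∉ Q ∨ D.snd g ∈ A ∧ D.fst g ∉ Q

theorem mem_out {Q A : Finset V} {g : E} :
    g ∈ D.out Q A ↔ (D.fst g ∈ A ∧ D.snd g ∉ Q ∨ D.snd g ∈ A ∧ D.fst g ∉ Q) := by
  simp [out]

theorem sum_dg_out {Q A : Finset V} (hA : A ⊆ Q) : ∑ x ∈ A, D.dg Q x = (D.out Q A).card :=
  _root_.le_antisymm (D.sum_dg_le hA fun g hg => D.mem_out.2 hg)
    (D.card_le_sum_dg fun g hg => D.mem_out.1 hg)

/-- The vertices outside `H` where `σ` differs from the port. -/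
noncomputable def odd (σ : V → Bool) (H Q : Finset V) : Finset V :=
  Q.filter fun x => x ∉ H ∧ σ x ≠ σ (D.pi t x)

/-- The weight of these vertices. -/
noncomputable def fw (σ : V → Bool) (H Q : Finset V) : ℕ :=
  ∑ x ∈ D.odd t σ H Q, D.w * D.dg Q x

theorem fw_eq (σ : V → Bool) (H Q : Finset V) :
    D.fw t σ H Q = D.w * (D.out Q (D.odd t σ H Q)).card := by
  rw [fw, ← mul_sum, D.sum_dg_out (A := D.odd t σ H Q) (filter_subset _ _)]

theorem fw_empty (σ : V → Bool) (H Q : Finset V) : D.fw t σ H Q ≤ D.fw t σ ∅ Q :=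
  sum_le_sum_of_subset fun x hx => by
    simp only [odd, mem_filter] at hx ⊢
    exact ⟨hx.1, notMem_empty x, hx.2.2⟩

/-- The gain over the span is small. -/
def Small (σ : V → Bool) : Prop := 4 * D.WR σ t < D.k

/-- The hidden vertices of an origin. -/
noncomputable def hid (o : D.ι × Finset V) : Finset V :=
  if o.1 ∈ D.span t then ∅ else o.2 \ D.RV t

/-- The vertices on which cuts of one origin must agree. -/
noncomputable def anchor (o : D.ι × Finset V) : Finset V := D.bag o.1 ∩ D.RV t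

/-- An origin below `u`. -/
def Orig (u : D.ι) (o : D.ι × Finset V) : Prop :=
  D.Le o.1 u ∧ o.2.Nonempty ∧ (o.1 ∈ D.span t ∨ D.Bdry t o.1 ∧ o.2 ∈ D.pcs o.1)

theorem mem_hid {o : D.ι × Finset V} {x : V} (h : x ∈ D.hid t o) :
    o.1 ∉ D.span t ∧ x ∈ o.2 ∧ x ∉ D.RV t := by
  simp only [hid] at h
  split_ifs at h with hs
  · simp at h
  · exact ⟨hs, mem_sdiff.1 h⟩

theorem hid_sub (o : D.ι × Finset V) : D.hid t o ⊆ o.2 := fun _ h => (D.mem_hid t h).2.1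

theorem hid_disjoint {u : D.ι} {o o' : D.ι × Finset V} (h : D.Orig t u o) (h' : D.Orig t u o')
    (hne : o ≠ o') {x : V} (hx : x ∈ D.hid t o) : x ∉ D.hid t o' := fun hx' => by
  obtain ⟨h1, h2, h3⟩ := D.mem_hid t hx
  obtain ⟨h1', h2', -⟩ := D.mem_hid t hx'
  obtain ⟨hb, hp⟩ := h.2.2.resolve_left h1
  obtain ⟨hb', hp'⟩ := h'.2.2.resolve_left h1'
  have he := hb.unique hb' (D.pcs_sub_Vs hp h2) (D.pcs_sub_Vs hp' h2') h3
  obtain ⟨d, Q⟩ := o
  obtain ⟨d', Q'⟩ := o'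
  obtain rfl : d = d' := he
  exact hne (Prod.ext rfl ((D.pcs_eq hp h2).trans (D.pcs_eq hp' h2').symm))

/-- Uniform on the span, up to the weight `b`. -/
def Uni (σ : V → Bool) (Q : Finset V) (b : ℕ) : Prop :=
  ∃ s, (∀ x ∈ Q, σ (D.pi t x) = s) ∧ D.fw t σ ∅ Q ≤ b

/-- Carrying the origin `o`, up to the weight `b`. -/
def Tnt (u : D.ι) (σ : V → Bool) (Q : Finset V) (b : ℕ) (o : D.ι × Finset V) : Prop :=
  D.k + D.fw t σ (D.hid t o) Q ≤ b ∧ D.Orig t u o ∧ o.2 ⊆ Q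

/-- Equal on the ports of `Q`. -/
def Eqv (σ σ' : V → Bool) (Q : Finset V) : Prop :=
  ∀ x ∈ Q, σ (D.pi t x) = σ' (D.pi t x)

/-- A forbidden pattern of two cuts with different origins. -/
def Forb (σ σ' : V → Bool) (Q : Finset V) (o o' : D.ι × Finset V) : Prop :=
  ∃ s s', (∀ x ∈ Q, ¬ (σ (D.pi t x) = s ∧ σ' (D.pi t x) = s')) ∧
    (∀ x ∈ D.hid t o, σ' (D.pi t x) ≠ s') ∧ ∀ x ∈ D.hid t o', σ (D.pi t x) ≠ s

variable {D t} in
theorem Forb.symm {σ σ' : V → Bool} {Q : Finset V} {o o' : D.ι × Finset V}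
    (h : D.Forb t σ σ' Q o o') : D.Forb t σ' σ Q o' o :=
  let ⟨s, s', h1, h2, h3⟩ := h
  ⟨s', s, fun x hx hh => h1 x hx hh.symm, h3, h2⟩

/-- The state of all small cuts on a family of pieces. -/
structure Stat (u : D.ι) (PS : Finset (Finset V)) (b : (V → Bool) → Finset V → ℕ)
    (st : (V → Bool) → Finset V → Option (D.ι × Finset V)) : Prop where
  uni : ∀ σ, D.Small t σ → ∀ Q ∈ PS, st σ Q = none → D.Uni t σ Q (b σ Q)
  tnt : ∀ σ, D.Small t σ → ∀ Q ∈ PS, ∀ o, st σ Q = some o → D.Tnt t u σ Q (b σ Q) o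
  eqv : ∀ σ σ', D.Small t σ → D.Small t σ' → ∀ Q ∈ PS, ∀ o, st σ Q = some o →
    (st σ' Q = none ∨ st σ' Q = some o) → (∀ x ∈ D.anchor t o, σ x = σ' x) → D.Eqv t σ σ' Q
  forb : ∀ σ σ', D.Small t σ → D.Small t σ' → ∀ Q ∈ PS, ∀ o o', st σ Q = some o →
    st σ' Q = some o' → o ≠ o' → D.Forb t σ σ' Q o o'

/-- The gain in the span below `u`. -/
noncomputable def WB (σ : V → Bool) (u : D.ι) : ℕ :=
  ∑ v ∈ (D.span t).filter (fun v => D.Le v u), D.W σ v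

theorem WB_le (σ : V → Bool) (u : D.ι) : D.WB t σ u ≤ D.WR σ t :=
  sum_le_sum_of_subset (filter_subset _ _)

theorem WB_bdry {d : D.ι} (hd : D.Bdry t d) (σ : V → Bool) : D.WB t σ d = 0 := by
  rw [WB, filter_false_of_mem fun v hv => hd.not_le hv, sum_empty]

theorem WB_split {u : D.ι} (hu : u ∈ D.span t) (σ : V → Bool) :
    ∑ d ∈ D.kids u, D.WB t σ d + D.W σ u ≤ D.WB t σ u := by
  simp only [WB]
  rw [← sum_biUnion, add_comm, ← sum_insert]
  · refine sum_le_sum_of_subset fun v hv => ?_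
    rcases mem_insert.1 hv with rfl | hv
    · exact mem_filter.2 ⟨hu, D.le_refl _⟩
    · obtain ⟨d, hd, hv⟩ := mem_biUnion.1 hv
      exact mem_filter.2 ⟨(mem_filter.1 hv).1,
        (mem_filter.1 hv).2.trans (D.le_par (D.mem_kids.1 hd))⟩
  · intro h
    obtain ⟨d, hd, hv⟩ := mem_biUnion.1 h
    exact D.not_le_child (D.mem_kids.1 hd) (mem_filter.1 hv).2
  · intro a ha b hb hab
    refine disjoint_left.2 fun v hv hv' => hab ?_
    exact D.kid_eq ha hb (mem_filter.1 hv).2 (mem_filter.1 hv').2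

/-- Pieces with their weights. -/
structure Weights (u : D.ι) (b : (V → Bool) → Finset V → ℕ) : Prop where
  low : ∀ σ, ∀ Q ∈ D.pcs u, D.phi σ (D.I u) Q ≤ b σ Q
  high : ∀ σ, ∑ Q ∈ D.pcs u, b σ Q ≤ D.Phi σ u + D.WB t σ u

variable {D t} in
theorem Weights.cap {u : D.ι} {b : (V → Bool) → Finset V → ℕ} (h : D.Weights t u b)
    {σ : V → Bool} {Q : Finset V} (hQ : Q ∈ D.pcs u) :
    b σ Q ≤ D.phi σ (D.I u) Q + D.WR σ t := by
  have h1 := h.high σ
  have h2 := D.WB_le t σ u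
  rw [Phi, ← add_sum_erase _ _ hQ, ← add_sum_erase _ _ hQ] at h1
  have h3 : ∑ P ∈ (D.pcs u).erase Q, D.phi σ (D.I u) P ≤ ∑ P ∈ (D.pcs u).erase Q, b σ P :=
    sum_le_sum fun P hP => h.low σ P (mem_of_mem_erase hP)
  omega

/-- The pieces at a child of the span outside it. -/
theorem bdry_stat {d : D.ι} (hd : D.Bdry t d) :
    ∃ b st, D.Weights t d b ∧ D.Stat t d (D.pcs d) b st := by
  refine ⟨fun σ Q => D.phi σ (D.I d) Q,
    fun σ Q => if D.phi σ (D.I d) Q = D.k then some (d, Q) else none,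
    ⟨fun σ Q _ => le_rfl, fun σ => Nat.le_add_right _ _⟩,
    ⟨fun σ _ Q hQ h => ?_, fun σ _ Q hQ o h => ?_, fun σ σ' _ _ Q hQ o h _ hA x hx => ?_,
      fun σ σ' _ _ Q hQ o o' h h' hne => ?_⟩⟩
  · simp only [ite_eq_right_iff, reduceCtorEq, imp_false] at h
    obtain ⟨p, hp⟩ := hd.exists_par
    obtain ⟨z, hz, hzI⟩ := D.pcs_port hp hQ
    obtain ⟨hu, he⟩ := D.uniform_of_small (σ := σ) (lt_of_le_of_ne (D.phi_le_k _ _ _) h) hz hzI
    have hport : ∀ x ∈ Q, σ (D.pi t x) = σ z := fun x hx =>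
      hu _ (D.pi_bdry t hd hQ hx).1 (D.pi_bdry t hd hQ hx).2
    refine ⟨σ z, hport, ?_⟩
    rw [he, side, fw]
    refine le_trans (sum_le_sum fun x hx => le_of_eq ?_) (sum_le_sum_of_subset fun x hx => ?_)
    · simp only [odd, mem_filter] at hx
      rw [D.wt_of_notMem fun hI => ?_]
      exact hx.2.2 (by rw [D.pi_of_mem t (hd.I_sub hI)])
    · simp only [odd, mem_filter] at hx ⊢
      exact ⟨hx.1, Bool.eq_not_of_ne fun e => hx.2.2 (e.trans (hport x hx.1).symm)⟩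
  · simp only [Option.ite_none_right_eq_some, Option.some.injEq] at h
    obtain ⟨h, rfl⟩ := h
    obtain ⟨p, hp⟩ := hd.exists_par
    obtain ⟨z, hz, -⟩ := D.pcs_port hp hQ
    refine ⟨?_, ⟨D.le_refl d, ⟨z, hz⟩, Or.inr ⟨hd, hQ⟩⟩, subset_refl _⟩
    have h0 : D.fw t σ (D.hid t (d, Q)) Q = 0 := by
      rw [fw, sum_eq_zero]
      intro x hx
      simp only [odd, mem_filter, hid, if_neg hd.1, mem_sdiff, not_and, not_not] at hx
      exact absurd (by rw [D.pi_of_mem t (hx.2.1 hx.1)]) hx.2.2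
    rw [h0, add_zero, h]
  · simp only [Option.ite_none_right_eq_some, Option.some.injEq] at h
    obtain ⟨-, rfl⟩ := h
    obtain ⟨h1, h2⟩ := D.pi_bdry t hd hQ hx
    exact hA _ (mem_inter.2 ⟨D.I_sub d h2, hd.I_sub h2⟩)
  · simp only [Option.ite_none_right_eq_some, Option.some.injEq] at h h'
    exact absurd (h.2.symm.trans h'.2) hne

section pre

variable {u : D.ι} {b : D.ι → (V → Bool) → Finset V → ℕ}
  {st : D.ι → (V → Bool) → Finset V → Option (D.ι × Finset V)}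

/-- The weight of a piece before the bundle of `u`. -/
noncomputable def preB (u : D.ι) (b : D.ι → (V → Bool) → Finset V → ℕ) (σ : V → Bool)
    (Q : Finset V) : ℕ :=
  ∑ i ∈ D.parts u Q, b i.1 σ i.2

/-- The origin of a piece before the bundle of `u`. -/
noncomputable def preSt (u : D.ι)
    (st : D.ι → (V → Bool) → Finset V → Option (D.ι × Finset V)) (σ : V → Bool)
    (Q : Finset V) : Option (D.ι × Finset V) :=
  if h : ∃ o, ∃ i ∈ D.parts u Q, st i.1 σ i.2 = some o then some h.choose else none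

theorem preSt_none {σ : V → Bool} {Q : Finset V} (h : D.preSt u st σ Q = none) :
    ∀ i ∈ D.parts u Q, st i.1 σ i.2 = none := by
  intro i hi
  by_contra hne
  obtain ⟨o, ho⟩ := Option.ne_none_iff_exists'.1 hne
  have hex : ∃ o, ∃ i ∈ D.parts u Q, st i.1 σ i.2 = some o := ⟨o, i, hi, ho⟩
  rw [preSt, dif_pos hex] at h
  exact absurd h (by simp)

theorem preSt_some {σ : V → Bool} {Q : Finset V} {o : D.ι × Finset V}
    (h : D.preSt u st σ Q = some o) : ∃ i ∈ D.parts u Q, st i.1 σ i.2 = some o := by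
  rw [preSt] at h
  split_ifs at h with hex
  cases h
  exact hex.choose_spec

theorem part_pi (hu : u ∈ D.span t) {Q : Finset V} {i : Σ _ : D.ι, Finset V}
    (hi : i ∈ D.parts u Q) {x : V} (hx : x ∈ i.2) : D.pi t x ∈ i.2 := by
  rcases D.span_kid t hu (D.mem_parts.1 hi).1.1 with h | h
  · exact (D.pi_pcs t h (D.mem_parts.1 hi).1.2 hx).1
  · exact (D.pi_bdry t h (D.mem_parts.1 hi).1.2 hx).1

variable (hu : u ∈ D.span t) (hS : ∀ d ∈ D.kids u, D.Stat t d (D.pcs d) (b d) (st d))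
  (hcap : ∀ σ, D.Small t σ → ∀ Q ∈ D.pm u, D.preB u b σ Q < 2 * D.k)

include hS hcap in
theorem one_part {σ : V → Bool} (hσ : D.Small t σ) {Q : Finset V} (hQ : Q ∈ D.pm u)
    {i j : Σ _ : D.ι, Finset V} (hi : i ∈ D.parts u Q) (hj : j ∈ D.parts u Q)
    {o o' : D.ι × Finset V} (ho : st i.1 σ i.2 = some o) (ho' : st j.1 σ j.2 = some o') :
    i = j := by
  by_contra hne
  have h1 := ((hS _ (D.mem_parts.1 hi).1.1).tnt σ hσ _ (D.mem_parts.1 hi).1.2 o ho).1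
  have h2 := ((hS _ (D.mem_parts.1 hj).1.1).tnt σ hσ _ (D.mem_parts.1 hj).1.2 o' ho').1
  have h3 : b i.1 σ i.2 + b j.1 σ j.2 ≤ D.preB u b σ Q := by
    rw [preB, ← add_sum_erase _ _ hi]
    refine Nat.add_le_add_left (single_le_sum (f := fun k : (Σ _ : D.ι, Finset V) => b k.1 σ k.2)
      (fun k _ => Nat.zero_le _) (mem_erase.2 ⟨Ne.symm hne, hj⟩)) _
  have := hcap σ hσ Q hQ
  omega

include hS in
theorem same_part {σ σ' : V → Bool} (hσ : D.Small t σ) (hσ' : D.Small t σ') {Q : Finset V}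
    {i j : Σ _ : D.ι, Finset V} (hi : i ∈ D.parts u Q) (hj : j ∈ D.parts u Q)
    {o : D.ι × Finset V} (ho : st i.1 σ i.2 = some o) (ho' : st j.1 σ' j.2 = some o) :
    i = j := by
  obtain ⟨-, h1, h1'⟩ := (hS _ (D.mem_parts.1 hi).1.1).tnt σ hσ _ (D.mem_parts.1 hi).1.2 o ho
  obtain ⟨-, h2, h2'⟩ := (hS _ (D.mem_parts.1 hj).1.1).tnt σ' hσ' _ (D.mem_parts.1 hj).1.2 o ho'
  obtain ⟨x, hx⟩ := h1.2.1
  exact D.parts_unique hi hj
    (D.kid_eq (D.mem_parts.1 hi).1.1 (D.mem_parts.1 hj).1.1 h1.1 h2.1) (h1' hx) (h2' hx)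

include hu in
theorem fw_pre {σ : V → Bool} {Q H : Finset V} (hQ : Q ∈ D.pm u) :
    D.fw t σ H Q ≤ ∑ i ∈ D.parts u Q, D.fw t σ H i.2 := by
  refine sum_le_cover (A := fun i : (Σ _ : D.ι, Finset V) => D.odd t σ H i.2)
    (h := fun i x => D.w * D.dg i.2 x) fun x hx => ?_
  simp only [odd, mem_filter] at hx
  have hxb : x ∉ D.bag u := fun h =>
    hx.2.2 (by rw [D.pi_of_mem t (D.bag_sub_RV t hu h)])
  obtain ⟨i, hi, hxi, -⟩ := D.exists_part hQ hx.1 hxb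
  exact ⟨i, hi, mem_filter.2 ⟨hxi, hx.2⟩, Nat.mul_le_mul_left _ (D.dg_anti (D.mem_parts.1 hi).2 x)⟩

theorem prop_parts {Q : Finset V} (hQ : Q ∈ D.pm u) {v : V} (hv : v ∈ Q) (p : V → Prop)
    (hp : ∀ i ∈ D.parts u Q, ∀ x ∈ i.2, ∀ y ∈ i.2, p x → p y) (h : p v) : ∀ x ∈ Q, p x := by
  intro x hx
  have hQv := D.pm_eq hQ hv
  rw [hQv] at hx
  refine D.R_induct (D.mem_comp.1 hx) p (fun g hg hr => ?_) h
  obtain ⟨i, hi, h1, h2⟩ := D.part_edge hg hQ (by rw [hQv]; exact D.mem_comp.2 hr)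
  exact ⟨hp i hi _ h1 _ h2, hp i hi _ h2 _ h1⟩

include hu hS hcap in
theorem pre_stat : D.Stat t u (D.pm u) (D.preB u b) (D.preSt u st) := by
  refine ⟨fun σ hσ Q hQ h => ?_, fun σ hσ Q hQ o h => ?_,
    fun σ σ' hσ hσ' Q hQ o h h' hA => ?_, fun σ σ' hσ hσ' Q hQ o o' h h' hne => ?_⟩
  · have hn := D.preSt_none h
    obtain ⟨y, hy, rfl⟩ := mem_image.1 hQ
    refine ⟨σ (D.pi t y), D.prop_parts hQ (D.self_comp _ y)
      (fun x => σ (D.pi t x) = σ (D.pi t y)) (fun i hi a ha c hc hac => ?_) rfl, ?_⟩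
    · obtain ⟨s, hs, -⟩ :=
        (hS _ (D.mem_parts.1 hi).1.1).uni σ hσ _ (D.mem_parts.1 hi).1.2 (hn i hi)
      exact ((hs c hc).trans (hs a ha).symm).trans hac
    · refine (D.fw_pre t hu hQ).trans (sum_le_sum fun i hi => ?_)
      obtain ⟨s, -, hs⟩ :=
        (hS _ (D.mem_parts.1 hi).1.1).uni σ hσ _ (D.mem_parts.1 hi).1.2 (hn i hi)
      exact hs
  · obtain ⟨i, hi, ho⟩ := D.preSt_some h
    obtain ⟨h1, h2, h3⟩ := (hS _ (D.mem_parts.1 hi).1.1).tnt σ hσ _ (D.mem_parts.1 hi).1.2 o ho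
    refine ⟨?_, ⟨h2.1.trans (D.le_par (D.parts_par hi)), h2.2⟩,
      h3.trans (D.mem_parts.1 hi).2⟩
    have key := D.fw_pre (H := D.hid t o) (σ := σ) t hu hQ
    rw [← add_sum_erase _ _ hi] at key
    rw [preB, ← add_sum_erase _ _ hi]
    have : ∑ j ∈ (D.parts u Q).erase i, D.fw t σ (D.hid t o) j.2 ≤
        ∑ j ∈ (D.parts u Q).erase i, b j.1 σ j.2 := by
      refine sum_le_sum fun j hj => ?_
      obtain ⟨hji, hj⟩ := mem_erase.1 hj
      have hn : st j.1 σ j.2 = none := by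
        by_contra hne
        obtain ⟨o', ho'⟩ := Option.ne_none_iff_exists'.1 hne
        exact hji (D.one_part t hS hcap hσ hQ hi hj ho ho').symm
      obtain ⟨s, -, hs⟩ := (hS _ (D.mem_parts.1 hj).1.1).uni σ hσ _ (D.mem_parts.1 hj).1.2 hn
      exact (D.fw_empty t σ _ _).trans hs
    omega
  · obtain ⟨i, hi, ho⟩ := D.preSt_some h
    have hnone : ∀ j ∈ D.parts u Q, j ≠ i → st j.1 σ j.2 = none ∧ st j.1 σ' j.2 = none := by
      intro j hj hji
      constructor <;> by_contra hne <;> obtain ⟨o', ho'⟩ := Option.ne_none_iff_exists'.1 hne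
      · exact hji (D.one_part t hS hcap hσ hQ hi hj ho ho').symm
      · rcases h' with h' | h'
        · exact absurd ho' (by rw [D.preSt_none h' j hj]; simp)
        · obtain ⟨i', hi', ho''⟩ := D.preSt_some h'
          obtain rfl := D.same_part t hS hσ hσ' hi hi' ho ho''
          exact hji (D.one_part t hS hcap hσ' hQ hi hj ho'' ho').symm
    have hi' : st i.1 σ' i.2 = none ∨ st i.1 σ' i.2 = some o := by
      rcases h' with h' | h'
      · exact Or.inl (D.preSt_none h' i hi)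
      · obtain ⟨i', hi', ho''⟩ := D.preSt_some h'
        obtain rfl := D.same_part t hS hσ hσ' hi hi' ho ho''
        exact Or.inr ho''
    have hQi := (hS _ (D.mem_parts.1 hi).1.1).eqv σ σ' hσ hσ' _ (D.mem_parts.1 hi).1.2 o ho hi' hA
    obtain ⟨z, hz, -⟩ := D.pcs_port (D.parts_par hi) (D.mem_parts.1 hi).1.2
    refine D.prop_parts hQ ((D.mem_parts.1 hi).2 hz)
      (fun x => σ (D.pi t x) = σ' (D.pi t x)) (fun j hj a ha c hc hac => ?_) (hQi z hz)
    by_cases hji : j = i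
    · subst hji; exact hQi c hc
    · obtain ⟨s, hs, -⟩ := (hS _ (D.mem_parts.1 hj).1.1).uni σ hσ _ (D.mem_parts.1 hj).1.2
        (hnone j hj hji).1
      obtain ⟨s', hs', -⟩ := (hS _ (D.mem_parts.1 hj).1.1).uni σ' hσ' _ (D.mem_parts.1 hj).1.2
        (hnone j hj hji).2
      rw [hs c hc, hs' c hc, ← hs a ha, ← hs' a ha]; exact hac
  · obtain ⟨i, hi, ho⟩ := D.preSt_some h
    obtain ⟨i', hi', ho'⟩ := D.preSt_some h'
    have hnone : ∀ j ∈ D.parts u Q, (j ≠ i → st j.1 σ j.2 = none) ∧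
        (j ≠ i' → st j.1 σ' j.2 = none) := by
      intro j hj
      constructor <;> intro hji <;> by_contra hne <;>
        obtain ⟨o'', ho''⟩ := Option.ne_none_iff_exists'.1 hne
      · exact hji (D.one_part t hS hcap hσ hQ hi hj ho ho'').symm
      · exact hji (D.one_part t hS hcap hσ' hQ hi' hj ho' ho'').symm
    obtain ⟨z, hz, -⟩ := D.pcs_port (D.parts_par hi) (D.mem_parts.1 hi).1.2
    by_cases hii : i = i'
    · subst hii
      obtain ⟨s, s', hf, hf1, hf2⟩ :=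
        (hS _ (D.mem_parts.1 hi).1.1).forb σ σ' hσ hσ' _ (D.mem_parts.1 hi).1.2 o o' ho ho' hne
      refine ⟨s, s', D.prop_parts hQ ((D.mem_parts.1 hi).2 hz) _ (fun j hj a ha c hc hac => ?_)
        (hf z hz), hf1, hf2⟩
      by_cases hji : j = i
      · subst hji; exact hf c hc
      · obtain ⟨r, hr, -⟩ := (hS _ (D.mem_parts.1 hj).1.1).uni σ hσ _ (D.mem_parts.1 hj).1.2
          ((hnone j hj).1 hji)
        obtain ⟨r', hr', -⟩ := (hS _ (D.mem_parts.1 hj).1.1).uni σ' hσ' _ (D.mem_parts.1 hj).1.2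
          ((hnone j hj).2 hji)
        rw [hr c hc, hr' c hc, ← hr a ha, ← hr' a ha]; exact hac
    · obtain ⟨r₀, hr₀, -⟩ := (hS _ (D.mem_parts.1 hi).1.1).uni σ' hσ' _ (D.mem_parts.1 hi).1.2
        ((hnone i hi).2 hii)
      obtain ⟨r₁, hr₁, -⟩ := (hS _ (D.mem_parts.1 hi').1.1).uni σ hσ _ (D.mem_parts.1 hi').1.2
        ((hnone i' hi').1 (Ne.symm hii))
      have o2 := ((hS _ (D.mem_parts.1 hi).1.1).tnt σ hσ _ (D.mem_parts.1 hi).1.2 o ho).2.2
      have o2' := ((hS _ (D.mem_parts.1 hi').1.1).tnt σ' hσ' _ (D.mem_parts.1 hi').1.2 o' ho').2.2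
      refine ⟨!r₁, !r₀, D.prop_parts hQ ((D.mem_parts.1 hi).2 hz) _
        (fun j hj a ha c hc hac => ?_) (by rw [hr₀ z hz]; simp), fun x hx => ?_, fun x hx => ?_⟩
      · by_cases h1 : j = i
        · subst h1; rw [hr₀ c hc]; simp
        by_cases h2 : j = i'
        · subst h2; rw [hr₁ c hc]; simp
        obtain ⟨r, hr, -⟩ := (hS _ (D.mem_parts.1 hj).1.1).uni σ hσ _ (D.mem_parts.1 hj).1.2
          ((hnone j hj).1 h1)
        obtain ⟨r', hr', -⟩ := (hS _ (D.mem_parts.1 hj).1.1).uni σ' hσ' _ (D.mem_parts.1 hj).1.2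
          ((hnone j hj).2 h2)
        rw [hr c hc, hr' c hc, ← hr a ha, ← hr' a ha]; exact hac
      · rw [hr₀ x (o2 (D.hid_sub t o hx))]; simp
      · rw [hr₁ x (o2' (D.hid_sub t o' hx))]; simp

end pre

end Vale.Agent.P061.TW.Dec
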