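import Vale.Agent.P061.TW.Inv

/-!
# Bounded treewidth: crossing an event

The comparison of two small cuts survives the merging of two pieces by a bundle.
-/

namespace Vale.Agent.P061.TW.Dec

open Finset Classical

variable {V E : Type} [Fintype V] [Fintype E] (D : Dec V E) (t : D.ι)

/-- An end outside `H` that differs from its port. -/
def OddEnd (σ : V → Bool) (H : Finset V) (a : V) : Prop := a ∉ H ∧ σ a ≠ σ (D.pi t a)

/-- The bundle copies with such an end. -/
noncomputable def bade (σ : V → Bool) (H : Finset V) (u : D.ι) : Finset E :=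
  (D.B u).filter fun g => D.OddEnd t σ H (D.fst g) ∨ D.OddEnd t σ H (D.snd g)

variable {u : D.ι} {K L : Finset V}

theorem mem_bade {σ : V → Bool} {H : Finset V} {g : E} :
    g ∈ D.bade t σ H u ↔
      g ∈ D.B u ∧ (D.OddEnd t σ H (D.fst g) ∨ D.OddEnd t σ H (D.snd g)) :=
  mem_filter

theorem merge_false (hev : D.Ev u K L) (σ : V → Bool) (H : Finset V) :
    D.fw t σ H (K ∪ L) + D.w * (D.bade t σ H u).card ≤ D.fw t σ H K + D.fw t σ H L := by
  simp only [fw_eq, ← mul_add]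
  refine Nat.mul_le_mul_left _ ?_
  rw [← card_union_of_disjoint]
  · refine le_trans (card_le_card ?_) (card_union_le _ _)
    intro g hg
    simp only [mem_union, mem_out, odd, mem_bade, OddEnd, mem_filter] at hg ⊢
    rcases hg with (⟨⟨ha | ha, hp⟩, hn⟩ | ⟨⟨ha | ha, hp⟩, hn⟩) | ⟨hg, hp⟩
    · exact Or.inl (Or.inl ⟨⟨ha, hp⟩, fun h => hn (Or.inl h)⟩)
    · exact Or.inr (Or.inl ⟨⟨ha, hp⟩, fun h => hn (Or.inr h)⟩)
    · exact Or.inl (Or.inr ⟨⟨ha, hp⟩, fun h => hn (Or.inl h)⟩)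
    · exact Or.inr (Or.inr ⟨⟨ha, hp⟩, fun h => hn (Or.inr h)⟩)
    · have nK : ∀ {z}, z ∈ L → z ∉ K := fun hz h => disjoint_left.1 hev.disj h hz
      have nL : ∀ {z}, z ∈ K → z ∉ L := fun hz h => disjoint_left.1 hev.disj hz h
      rcases hev.between g hg with ⟨a, b⟩ | ⟨a, b⟩ <;> rcases hp with hp | hp
      · exact Or.inl (Or.inl ⟨⟨a, hp⟩, nK b⟩)
      · exact Or.inr (Or.inr ⟨⟨b, hp⟩, nL a⟩)
      · exact Or.inr (Or.inl ⟨⟨a, hp⟩, nL b⟩)
      · exact Or.inl (Or.inr ⟨⟨b, hp⟩, nK a⟩)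
  · refine disjoint_left.2 fun g hg hg' => ?_
    have hb := hev.between g (mem_filter.1 hg').1
    simp only [mem_out, mem_union] at hg
    rcases hg with ⟨-, hn⟩ | ⟨-, hn⟩ <;> rcases hb with ⟨a, b⟩ | ⟨a, b⟩
    exacts [hn (Or.inr b), hn (Or.inl b), hn (Or.inl a), hn (Or.inr a)]

/-- A bundle copy which is uncrossed, with ends that agree with their ports. -/
def Fine (σ : V → Bool) (H : Finset V) (a z : V) : Prop :=
  σ a = σ z ∧ (a ∉ H → σ a = σ (D.pi t a)) ∧ (z ∉ H → σ z = σ (D.pi t z))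

theorem good_edge (hev : D.Ev u K L) {σ σ' : V → Bool} (hσ : D.Small t σ) (hσ' : D.Small t σ')
    {H H' : Finset V} (h : D.w * (D.cr σ u + (D.bade t σ H u).card) ≤ D.WR σ t)
    (h' : D.w * (D.cr σ' u + (D.bade t σ' H' u).card) ≤ D.WR σ' t) :
    ∃ g ∈ D.B u, ∃ a ∈ K, ∃ z ∈ L, (D.fst g = a ∧ D.snd g = z ∨ D.fst g = z ∧ D.snd g = a) ∧
      D.Fine t σ H a z ∧ D.Fine t σ' H' a z := by
  set bad := (((D.B u).filter fun g => σ (D.fst g) ≠ σ (D.snd g)) ∪ D.bade t σ H u) ∪
    (((D.B u).filter fun g => σ' (D.fst g) ≠ σ' (D.snd g)) ∪ D.bade t σ' H' u) with hbad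
  have hcard : D.w * bad.card < D.w * (D.B u).card := by
    have h1 : bad.card ≤
        (D.cr σ u + (D.bade t σ H u).card) + (D.cr σ' u + (D.bade t σ' H' u).card) :=
      (card_union_le _ _).trans (Nat.add_le_add (card_union_le _ _) (card_union_le _ _))
    have h2 := Nat.mul_le_mul_left D.w h1
    rw [mul_add] at h2
    have h3 := hev.heavy
    simp only [Small] at hσ hσ'
    omega
  obtain ⟨g, hg, hgn⟩ : ∃ g ∈ D.B u, g ∉ bad := by
    by_contra hc
    push Not at hc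
    exact absurd (Nat.mul_le_mul_left D.w (card_le_card hc)) (not_le.2 hcard)
  simp only [hbad, mem_union, mem_filter, mem_bade, OddEnd, hg, true_and, not_or, not_and,
    not_not] at hgn
  obtain ⟨⟨e, e1, e2⟩, e', e1', e2'⟩ := hgn
  rcases hev.between g hg with ⟨a, b⟩ | ⟨a, b⟩
  · exact ⟨g, hg, _, a, _, b, Or.inl ⟨rfl, rfl⟩, ⟨e, e1, e2⟩, e', e1', e2'⟩
  · exact ⟨g, hg, _, b, _, a, Or.inr ⟨rfl, rfl⟩, ⟨e.symm, e2, e1⟩, e'.symm, e2', e1'⟩

/-- A hidden end of the bundle gives a port on the other side. -/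
theorem hidden_port (hu : u ∈ D.span t) (hev : D.Ev u K L) {o : D.ι × Finset V}
    (ho : D.Orig t u o) {g : E} {a z : V}
    (hg : D.fst g = a ∧ D.snd g = z ∨ D.fst g = z ∧ D.snd g = a) (hz : z ∈ L)
    (hH : a ∈ D.hid t o) : ∃ y ∈ L, y ∈ D.anchor t o ∧ D.pi t y = y := by
  obtain ⟨h1, h2, h3⟩ := D.mem_hid t hH
  obtain ⟨hb, hp⟩ := ho.2.2.resolve_left h1
  have hle : D.Le (D.home g) o.1 :=
    D.le_home (x := a) (hg.imp (·.1) (·.2)) (D.pcs_sub_Vs hp h2) fun h => h3 (hb.I_sub h)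
  have hzV : z ∈ D.Vs o.1 := by
    rcases hg with ⟨-, e⟩ | ⟨e, -⟩ <;> rw [← e]
    exacts [(D.ends_Vs hle).2, (D.ends_Vs hle).1]
  obtain ⟨p, hpp⟩ := hb.exists_par
  obtain ⟨y, hy, hzy⟩ := D.meets_post hpp hzV
  have hne : o.1 ≠ u := fun e => h1 (e ▸ hu)
  refine ⟨y, ?_, mem_inter.2 ⟨D.I_sub _ hy, hb.I_sub hy⟩, D.pi_of_mem t (hb.I_sub hy)⟩
  rw [D.pm_eq hev.hL hz, mem_comp]
  exact hzy.mono (D.Fp_sub_Fm ho.1 hne)

section post

variable {b : (V → Bool) → Finset V → ℕ} {st : (V → Bool) → Finset V → Option (D.ι × Finset V)}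

/-- The weight of a piece after the bundle of `u`. -/
noncomputable def postB (u : D.ι) (K L : Finset V) (b : (V → Bool) → Finset V → ℕ)
    (σ : V → Bool) (Q : Finset V) : ℕ :=
  if Q = K ∪ L then b σ K + b σ L + D.w * D.cr σ u else b σ Q

/-- The origin of a piece after the bundle of `u`. -/
noncomputable def postSt (u : D.ι) (K L : Finset V)
    (st : (V → Bool) → Finset V → Option (D.ι × Finset V)) (σ : V → Bool) (Q : Finset V) :
    Option (D.ι × Finset V) :=
  if Q = K ∪ L then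
    (if st σ K ≠ none then st σ K
    else if st σ L ≠ none then st σ L
    else if ∃ s, ∀ x ∈ K ∪ L, σ (D.pi t x) = s then none else some (u, K ∪ L))
  else st σ Q

variable (hu : u ∈ D.span t) (hev : D.Ev u K L) (hP : D.Stat t u (D.pm u) b st)
  (hcap : ∀ σ, D.Small t σ → b σ K + b σ L + D.w * D.cr σ u ≤ D.k + D.WR σ t)
  (hstrict : ∀ σ, D.Small t σ → ∀ Q ∈ D.pm u, ∀ o, st σ Q = some o → o.1 ≠ u)

include hev hP hcap in
theorem not_both {σ : V → Bool} (hσ : D.Small t σ) {o o' : D.ι × Finset V}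
    (h : st σ K = some o) (h' : st σ L = some o') : False := by
  have h1 := (hP.tnt σ hσ K hev.hK o h).1
  have h2 := (hP.tnt σ hσ L hev.hL o' h').1
  have h3 := hcap σ hσ
  simp only [Small] at hσ
  omega

include hev hP hcap in
theorem side_data {σ : V → Bool} (hσ : D.Small t σ) {o : D.ι × Finset V}
    (h : st σ K = some o) (hL : st σ L = none) :
    (∃ s, ∀ z ∈ L, σ (D.pi t z) = s) ∧
    D.k + D.fw t σ (D.hid t o) (K ∪ L) ≤ b σ K + b σ L + D.w * D.cr σ u ∧
    D.w * (D.cr σ u + (D.bade t σ (D.hid t o) u).card) ≤ D.WR σ t ∧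
    D.Orig t u o ∧ o.2 ⊆ K := by
  obtain ⟨h1, h2, h3⟩ := hP.tnt σ hσ K hev.hK o h
  obtain ⟨s, hs, h4⟩ := hP.uni σ hσ L hev.hL hL
  have h5 := D.merge_false t hev σ (D.hid t o)
  have h6 := (D.fw_empty t σ (D.hid t o) L).trans h4
  have h7 := hcap σ hσ
  refine ⟨⟨s, hs⟩, by omega, ?_, h2, h3⟩
  rw [mul_add]
  omega

include hu hev hP hcap in
theorem eqv_side {σ σ' : V → Bool} (hσ : D.Small t σ) (hσ' : D.Small t σ') {o : D.ι × Finset V}
    (hK : st σ K = some o) (hL : st σ L = none)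
    (h' : (st σ' K = none ∧ st σ' L = none ∧ ∃ s, ∀ x ∈ K ∪ L, σ' (D.pi t x) = s) ∨
      (st σ' K = some o ∧ st σ' L = none))
    (hA : ∀ x ∈ D.anchor t o, σ x = σ' x) : D.Eqv t σ σ' (K ∪ L) := by
  have hEK := hP.eqv σ σ' hσ hσ' K hev.hK o hK
    (h'.imp (·.1) (·.1)) hA
  obtain ⟨⟨s, hs⟩, -, hbd, ho, hoK⟩ := D.side_data t hev hP hcap hσ hK hL
  have hL' : st σ' L = none := h'.elim (·.2.1) (·.2)
  obtain ⟨s', hs', -⟩ := hP.uni σ' hσ' L hev.hL hL'
  have notH : ∀ z ∈ L, z ∉ D.hid t o := fun z hz h =>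
    disjoint_left.1 hev.disj (hoK (D.hid_sub t o h)) hz
  suffices hss : s = s' by
    intro x hx
    rcases mem_union.1 hx with hx | hx
    · exact hEK x hx
    · rw [hs x hx, hs' x hx, hss]
  have hport : ∀ g a z, (D.fst g = a ∧ D.snd g = z ∨ D.fst g = z ∧ D.snd g = a) → z ∈ L →
      a ∈ D.hid t o → s = s' := fun g a z hg hz ha => by
    obtain ⟨y, hy, hyA, hpy⟩ := D.hidden_port t hu hev ho hg hz ha
    rw [← hs y hy, ← hs' y hy, hpy]
    exact hA y hyA
  rcases h' with ⟨-, -, r, hr⟩ | ⟨hK', -⟩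
  · obtain ⟨g, -, a, ha, z, hz, hg, hf, -⟩ := D.good_edge t hev hσ hσ hbd hbd
    by_cases haH : a ∈ D.hid t o
    · exact hport g a z hg hz haH
    · calc s = σ z := by rw [hf.2.2 (notH z hz), hs z hz]
        _ = σ (D.pi t a) := hf.1.symm.trans (hf.2.1 haH)
        _ = σ' (D.pi t a) := hEK a ha
        _ = r := hr a (mem_union_left _ ha)
        _ = σ' (D.pi t z) := (hr z (mem_union_right _ hz)).symm
        _ = s' := hs' z hz
  · obtain ⟨-, -, hbd', -⟩ := D.side_data t hev hP hcap hσ' hK' hL'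
    obtain ⟨g, -, a, ha, z, hz, hg, hf, hf'⟩ := D.good_edge t hev hσ hσ' hbd hbd'
    by_cases haH : a ∈ D.hid t o
    · exact hport g a z hg hz haH
    · calc s = σ z := by rw [hf.2.2 (notH z hz), hs z hz]
        _ = σ (D.pi t a) := hf.1.symm.trans (hf.2.1 haH)
        _ = σ' (D.pi t a) := hEK a ha
        _ = σ' z := (hf'.2.1 haH).symm.trans hf'.1
        _ = σ' (D.pi t z) := hf'.2.2 (notH z hz)
        _ = s' := hs' z hz

include hu hev hP in
theorem eqv_new {σ σ' : V → Bool} (hσ : D.Small t σ) (hσ' : D.Small t σ')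
    (hK : st σ K = none) (hL : st σ L = none) (hK' : st σ' K = none) (hL' : st σ' L = none)
    (hA : ∀ x ∈ D.bag u, σ x = σ' x) : D.Eqv t σ σ' (K ∪ L) := by
  have key : ∀ M ∈ D.pm u, st σ M = none → st σ' M = none →
      ∀ x ∈ M, σ (D.pi t x) = σ' (D.pi t x) := by
    intro M hM h h' x hx
    obtain ⟨s, hs, -⟩ := hP.uni σ hσ M hM h
    obtain ⟨s', hs', -⟩ := hP.uni σ' hσ' M hM h'
    obtain ⟨y, hy, rfl⟩ := mem_image.1 hM
    have e := D.pi_of_mem t (D.bag_sub_RV t hu hy)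
    rw [hs x hx, hs' x hx, ← hs y (D.self_comp _ y), ← hs' y (D.self_comp _ y), e]
    exact hA y hy
  intro x hx
  rcases mem_union.1 hx with hx | hx
  · exact key K hev.hK hK hK' x hx
  · exact key L hev.hL hL hL' x hx

include hev hP hcap in
theorem forb_same {σ σ' : V → Bool} (hσ : D.Small t σ) (hσ' : D.Small t σ')
    {o o' : D.ι × Finset V} (hK : st σ K = some o) (hL : st σ L = none)
    (hK' : st σ' K = some o') (hL' : st σ' L = none) (hne : o ≠ o') :
    D.Forb t σ σ' (K ∪ L) o o' := by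
  obtain ⟨s, s', hf, hf1, hf2⟩ := hP.forb σ σ' hσ hσ' K hev.hK o o' hK hK' hne
  obtain ⟨⟨r, hr⟩, -, hbd, ho, hoK⟩ := D.side_data t hev hP hcap hσ hK hL
  obtain ⟨⟨r', hr'⟩, -, hbd', ho', hoK'⟩ := D.side_data t hev hP hcap hσ' hK' hL'
  obtain ⟨g, -, a, ha, z, hz, -, fi, fi'⟩ := D.good_edge t hev hσ hσ' hbd hbd'
  have e : σ a = r := by
    rw [fi.1, fi.2.2 fun h => disjoint_left.1 hev.disj (hoK (D.hid_sub t o h)) hz, hr z hz]
  have e' : σ' a = r' := by
    rw [fi'.1, fi'.2.2 fun h => disjoint_left.1 hev.disj (hoK' (D.hid_sub t o' h)) hz, hr' z hz]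
  have hrr : ¬ (r = s ∧ r' = s') := by
    rintro ⟨rfl, rfl⟩
    by_cases h : a ∈ D.hid t o
    · exact hf1 a h ((fi'.2.1 (D.hid_disjoint t ho ho' hne h)).symm.trans e')
    by_cases h' : a ∈ D.hid t o'
    · exact hf2 a h' ((fi.2.1 h).symm.trans e)
    exact hf a ha ⟨(fi.2.1 h).symm.trans e, (fi'.2.1 h').symm.trans e'⟩
  refine ⟨s, s', fun x hx => ?_, hf1, hf2⟩
  rcases mem_union.1 hx with hx | hx
  · exact hf x hx
  · rw [hr x hx, hr' x hx]; exact hrr

include hev hP in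
theorem forb_cross {σ σ' : V → Bool} (hσ : D.Small t σ) (hσ' : D.Small t σ')
    {o o' : D.ι × Finset V} (hK : st σ K = some o) (hL : st σ L = none)
    (hL' : st σ' L = some o') (hK' : st σ' K = none) : D.Forb t σ σ' (K ∪ L) o o' := by
  obtain ⟨r, hr, -⟩ := hP.uni σ hσ L hev.hL hL
  obtain ⟨r', hr', -⟩ := hP.uni σ' hσ' K hev.hK hK'
  have hoK := (hP.tnt σ hσ K hev.hK o hK).2.2
  have hoL := (hP.tnt σ' hσ' L hev.hL o' hL').2.2
  refine ⟨!r, !r', fun x hx => ?_, fun x hx => ?_, fun x hx => ?_⟩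
  · rcases mem_union.1 hx with hx | hx
    · rw [hr' x hx]; simp
    · rw [hr x hx]; simp
  · rw [hr' x (hoK (D.hid_sub t o hx))]; simp
  · rw [hr x (hoL (D.hid_sub t o' hx))]; simp

include hu hev hP in
theorem forb_new {σ σ' : V → Bool} (hσ' : D.Small t σ') {o' : D.ι × Finset V} {rK rL : Bool}
    (hrK : ∀ x ∈ K, σ (D.pi t x) = rK) (hrL : ∀ x ∈ L, σ (D.pi t x) = rL) (hne : rK ≠ rL)
    (hK' : st σ' K = some o') (hL' : st σ' L = none) :
    D.Forb t σ σ' (K ∪ L) (u, K ∪ L) o' := by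
  obtain ⟨r', hr', -⟩ := hP.uni σ' hσ' L hev.hL hL'
  have hoK := (hP.tnt σ' hσ' K hev.hK o' hK').2.2
  refine ⟨rL, !r', fun x hx => ?_, fun x hx => ?_, fun x hx => ?_⟩
  · rcases mem_union.1 hx with hx | hx
    · rw [hrK x hx]; exact fun h => hne h.1
    · rw [hr' x hx]; simp
  · simp [hid, hu] at hx
  · rw [hrK x (hoK (D.hid_sub t o' hx))]; exact hne

theorem postSt_self (σ : V → Bool) : D.postSt t u K L st σ (K ∪ L) =
    if st σ K ≠ none then st σ K else if st σ L ≠ none then st σ L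
    else if ∃ s, ∀ x ∈ K ∪ L, σ (D.pi t x) = s then none else some (u, K ∪ L) := if_pos rfl

theorem postSt_none {σ : V → Bool} (h : D.postSt t u K L st σ (K ∪ L) = none) :
    st σ K = none ∧ st σ L = none ∧ ∃ s, ∀ x ∈ K ∪ L, σ (D.pi t x) = s := by
  rw [postSt_self] at h
  split_ifs at h with h1 h2 h3
  · exact absurd h h1
  · exact absurd h h2
  · exact ⟨not_not.1 h1, not_not.1 h2, h3⟩

include hev hP hcap in
theorem postSt_some {σ : V → Bool} (hσ : D.Small t σ) {o : D.ι × Finset V}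
    (h : D.postSt t u K L st σ (K ∪ L) = some o) :
    (st σ K = some o ∧ st σ L = none) ∨ (st σ L = some o ∧ st σ K = none) ∨
      (st σ K = none ∧ st σ L = none ∧ o = (u, K ∪ L) ∧ ∃ rK rL, rK ≠ rL ∧
        (∀ x ∈ K, σ (D.pi t x) = rK) ∧ ∀ x ∈ L, σ (D.pi t x) = rL) := by
  rw [postSt_self] at h
  split_ifs at h with h1 h2 h3
  · refine Or.inl ⟨h, ?_⟩
    cases hL : st σ L with
    | none => rfl
    | some o' => exact (D.not_both t hev hP hcap hσ h hL).elim
  · exact Or.inr (Or.inl ⟨h, not_not.1 h1⟩)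
  · refine Or.inr (Or.inr ⟨not_not.1 h1, not_not.1 h2, (Option.some.inj h).symm, ?_⟩)
    obtain ⟨rK, hK, -⟩ := hP.uni σ hσ K hev.hK (not_not.1 h1)
    obtain ⟨rL, hL, -⟩ := hP.uni σ hσ L hev.hL (not_not.1 h2)
    refine ⟨rK, rL, ?_, hK, hL⟩
    rintro rfl
    exact h3 ⟨rK, fun x hx => (mem_union.1 hx).elim (hK x) (hL x)⟩

include hu hev hP hcap hstrict in
theorem post_stat :
    D.Stat t u (D.pcs u) (D.postB u K L b) (D.postSt t u K L st) := by
  have hev' := hev.symm
  have hcap' : ∀ σ, D.Small t σ → b σ L + b σ K + D.w * D.cr σ u ≤ D.k + D.WR σ t :=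
    fun σ hσ => by have := hcap σ hσ; omega
  have hother : ∀ Q ∈ D.pcs u, Q ≠ K ∪ L → Q ∈ D.pm u :=
    fun Q hQ hne => ((hev.other Q hQ).resolve_left hne).1
  refine ⟨fun σ hσ Q hQ h => ?_, fun σ hσ Q hQ o h => ?_,
    fun σ σ' hσ hσ' Q hQ o h h' hA => ?_, fun σ σ' hσ hσ' Q hQ o o' h h' hne => ?_⟩
  · by_cases hQP : Q = K ∪ L
    · subst hQP
      obtain ⟨hK, hL, s, hs⟩ := D.postSt_none t h
      refine ⟨s, hs, ?_⟩
      obtain ⟨-, -, h1⟩ := hP.uni σ hσ K hev.hK hK
      obtain ⟨-, -, h2⟩ := hP.uni σ hσ L hev.hL hL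
      have := D.merge_false t hev σ ∅
      rw [postB, if_pos rfl]
      omega
    · simp only [postSt, postB, if_neg hQP] at h ⊢
      exact hP.uni σ hσ Q (hother Q hQ hQP) h
  · by_cases hQP : Q = K ∪ L
    · subst hQP
      rw [postB, if_pos rfl]
      rcases D.postSt_some t hev hP hcap hσ h with ⟨hK, hL⟩ | ⟨hL, hK⟩ | ⟨hK, hL, rfl, hr⟩
      · obtain ⟨-, h1, -, h2, h3⟩ := D.side_data t hev hP hcap hσ hK hL
        exact ⟨h1, h2, h3.trans subset_union_left⟩
      · obtain ⟨-, h1, -, h2, h3⟩ := D.side_data t hev' hP hcap' hσ hL hK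
        refine ⟨?_, h2, h3.trans subset_union_right⟩
        rw [union_comm] at h1
        omega
      · obtain ⟨rK, rL, hne, hrK, hrL⟩ := hr
        obtain ⟨-, -, h1⟩ := hP.uni σ hσ K hev.hK hK
        obtain ⟨-, -, h2⟩ := hP.uni σ hσ L hev.hL hL
        obtain ⟨y, hy⟩ : K.Nonempty := by
          obtain ⟨y, -, e⟩ := mem_image.1 hev.hK
          exact ⟨y, e ▸ D.self_comp _ _⟩
        have hH : D.hid t (u, K ∪ L) = ∅ := by simp [hid, hu]
        refine ⟨?_, ⟨D.le_refl u, ⟨y, mem_union_left _ hy⟩, Or.inl hu⟩, subset_refl _⟩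
        rw [hH]
        have hsub : (D.B u) ⊆
            ((D.B u).filter fun g => σ (D.fst g) ≠ σ (D.snd g)) ∪ D.bade t σ ∅ u := by
          intro g hg
          by_contra hn
          simp only [mem_union, mem_filter, mem_bade, OddEnd, hg, true_and, not_or, not_and,
            not_not, notMem_empty, not_false_iff, forall_const] at hn
          obtain ⟨e, e1, e2⟩ := hn
          rcases hev.between g hg with ⟨a, c⟩ | ⟨a, c⟩
          · exact hne (by rw [← hrK _ a, ← hrL _ c, ← e1, ← e2, e])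
          · exact hne (by rw [← hrK _ c, ← hrL _ a, ← e1, ← e2, e])
        have h3 := Nat.mul_le_mul_left D.w ((card_le_card hsub).trans (card_union_le _ _))
        rw [mul_add] at h3
        change D.w * (D.B u).card ≤ D.w * D.cr σ u + _ at h3
        have := D.merge_false t hev σ ∅
        have := hev.heavy
        omega
    · simp only [postSt, postB, if_neg hQP] at h ⊢
      exact hP.tnt σ hσ Q (hother Q hQ hQP) o h
  · by_cases hQP : Q = K ∪ L
    · subst hQP
      rcases D.postSt_some t hev hP hcap hσ h with ⟨hK, hL⟩ | ⟨hL, hK⟩ | ⟨hK, hL, rfl, -⟩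
      · refine D.eqv_side t hu hev hP hcap hσ hσ' hK hL ?_ hA
        rcases h' with h' | h'
        · exact Or.inl (D.postSt_none t h')
        rcases D.postSt_some t hev hP hcap hσ' h' with hh | ⟨hL', -⟩ | ⟨-, -, rfl, -⟩
        · exact Or.inr hh
        · obtain ⟨y, hy⟩ := (hP.tnt σ hσ K hev.hK o hK).2.1.2.1
          exact absurd ((hP.tnt σ' hσ' L hev.hL o hL').2.2 hy)
            (disjoint_left.1 hev.disj ((hP.tnt σ hσ K hev.hK o hK).2.2 hy))
        · exact absurd rfl (hstrict σ hσ K hev.hK _ hK)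
      · rw [union_comm]
        refine D.eqv_side t hu hev' hP hcap' hσ hσ' hL hK ?_ hA
        rcases h' with h' | h'
        · obtain ⟨a, c, d⟩ := D.postSt_none t h'
          exact Or.inl ⟨c, a, union_comm K L ▸ d⟩
        rcases D.postSt_some t hev hP hcap hσ' h' with ⟨hK', -⟩ | hh | ⟨-, -, rfl, -⟩
        · obtain ⟨y, hy⟩ := (hP.tnt σ hσ L hev.hL o hL).2.1.2.1
          exact absurd ((hP.tnt σ hσ L hev.hL o hL).2.2 hy)
            (disjoint_left.1 hev.disj ((hP.tnt σ' hσ' K hev.hK o hK').2.2 hy))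
        · exact Or.inr hh
        · exact absurd rfl (hstrict σ hσ L hev.hL _ hL)
      · have hn : st σ' K = none ∧ st σ' L = none := by
          rcases h' with h' | h'
          · exact ⟨(D.postSt_none t h').1, (D.postSt_none t h').2.1⟩
          rcases D.postSt_some t hev hP hcap hσ' h' with ⟨hK', -⟩ | ⟨hL', -⟩ | ⟨a, c, -⟩
          · exact absurd rfl (hstrict σ' hσ' K hev.hK _ hK')
          · exact absurd rfl (hstrict σ' hσ' L hev.hL _ hL')
          · exact ⟨a, c⟩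
        exact D.eqv_new t hu hev hP hσ hσ' hK hL hn.1 hn.2 fun x hx =>
          hA x (mem_inter.2 ⟨hx, D.bag_sub_RV t hu hx⟩)
    · simp only [postSt, if_neg hQP] at h h'
      exact hP.eqv σ σ' hσ hσ' Q (hother Q hQ hQP) o h h' hA
  · by_cases hQP : Q = K ∪ L
    · subst hQP
      rcases D.postSt_some t hev hP hcap hσ h with ⟨hK, hL⟩ | ⟨hL, hK⟩ |
          ⟨-, -, rfl, rK, rL, hr, hrK, hrL⟩ <;>
        rcases D.postSt_some t hev hP hcap hσ' h' with ⟨hK', hL'⟩ | ⟨hL', hK'⟩ |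
          ⟨-, -, rfl, rK', rL', hr', hrK', hrL'⟩
      · exact D.forb_same t hev hP hcap hσ hσ' hK hL hK' hL' hne
      · exact D.forb_cross t hev hP hσ hσ' hK hL hL' hK'
      · exact (D.forb_new t hu hev hP hσ hrK' hrL' hr' hK hL).symm
      · exact (D.forb_cross t hev hP hσ' hσ hK' hL' hL hK).symm
      · rw [union_comm]
        exact D.forb_same t hev' hP hcap' hσ hσ' hL hK hL' hK' hne
      · rw [union_comm]
        exact (D.forb_new t hu hev' hP hσ hrL' hrK' hr'.symm hL hK).symm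
      · exact D.forb_new t hu hev hP hσ' hrK hrL hr hK' hL'
      · rw [union_comm]
        exact D.forb_new t hu hev' hP hσ' hrL hrK hr.symm hL' hK'
      · exact absurd rfl hne
    · simp only [postSt, if_neg hQP] at h h'
      exact hP.forb σ σ' hσ hσ' Q (hother Q hQ hQP) o o' h h' hne

end post

/-- All pieces at a node of the span, and one uniform side at each event. -/
theorem build (n : ℕ) : ∀ u, D.ht u < n → u ∈ D.span t →
    ∃ b st, D.Weights t u b ∧ D.Stat t u (D.pcs u) b st ∧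
      ((D.B u).Nonempty → ∃ K L, D.Ev u K L ∧ ∀ σ, D.Small t σ →
        ∃ s, (∀ x ∈ K, σ (D.pi t x) = s) ∨ ∀ x ∈ L, σ (D.pi t x) = s) := by
  induction n with
  | zero => intro u h; omega
  | succ n ih =>
    intro u hun hu
    have kid : ∀ d ∈ D.kids u, ∃ b st, D.Weights t d b ∧ D.Stat t d (D.pcs d) b st := by
      intro d hd
      rcases D.span_kid t hu hd with h | h
      · obtain ⟨b, st, h1, h2, -⟩ := ih d (by have := D.ht_lt d u (D.mem_kids.1 hd); omega) h
        exact ⟨b, st, h1, h2⟩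
      · exact D.bdry_stat t h
    choose! b st hW hS using kid
    have hsum : ∀ σ, ∑ Q ∈ D.pm u, D.preB u b σ Q ≤
        ∑ d ∈ D.kids u, D.Phi σ d + ∑ d ∈ D.kids u, D.WB t σ d := fun σ => by
      rw [← sum_add_distrib]
      exact (D.sum_parts_le u fun d Q => b d σ Q).trans (sum_le_sum fun d hd => (hW d hd).high σ)
    have hlow : ∀ σ, ∀ Q ∈ D.pm u, D.phi σ (D.bag u) Q ≤ D.preB u b σ Q := fun σ Q hQ =>
      (D.phi_union hQ).trans
        (sum_le_sum fun i hi => (hW _ (D.mem_parts.1 hi).1.1).low σ _ (D.mem_parts.1 hi).1.2)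
    have hstep := fun σ => D.Phi_add_W σ u
    have hWB := fun σ => D.WB_split t hu σ
    have hstrict : ∀ σ, D.Small t σ → ∀ Q ∈ D.pm u, ∀ o, D.preSt u st σ Q = some o →
        o.1 ≠ u := by
      intro σ hσ Q _ o h e
      obtain ⟨i, hi, ho⟩ := D.preSt_some h
      have h1 := ((hS _ (D.mem_parts.1 hi).1.1).tnt σ hσ _ (D.mem_parts.1 hi).1.2 o ho).2.1.1
      exact D.not_le_child (D.parts_par hi) (e ▸ h1)
    rcases (D.B u).eq_empty_or_nonempty with hB | hB
    · have hWt : D.Weights t u (D.preB u b) := by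
        refine ⟨fun σ Q hQ => ?_, fun σ => ?_⟩
        · rw [D.pcs_of_empty hB] at hQ
          exact (D.phi_forget (D.I_sub u)).trans (hlow σ Q hQ)
        · rw [D.pcs_of_empty hB]
          have := hsum σ; have := hstep σ; have := hWB σ
          have : 2 * D.w * D.cr σ u = 0 := by simp [cr, hB]
          omega
      refine ⟨_, D.preSt u st, hWt, ?_, fun h => by simp [hB] at h⟩
      rw [D.pcs_of_empty hB]
      refine D.pre_stat t hu hS fun σ hσ Q hQ => ?_
      have := hWt.cap (σ := σ) ((D.pcs_of_empty hB).symm ▸ hQ)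
      have := D.phi_le_k σ (D.I u) Q
      simp only [Small] at hσ
      omega
    · obtain ⟨K, L, hev⟩ := D.exists_Ev hB
      have hb : ∀ σ, ∀ Q ∈ D.pm u, Q ≠ K → Q ≠ L →
          D.postB u K L (D.preB u b) σ Q = D.preB u b σ Q := fun σ Q hQ h1 h2 =>
        if_neg (hev.keep Q hQ h1 h2).2
      have hWt : D.Weights t u (D.postB u K L (D.preB u b)) := by
        refine ⟨fun σ Q hQ => ?_, fun σ => ?_⟩
        · refine (D.phi_forget (D.I_sub u)).trans ?_
          rcases hev.other Q hQ with rfl | ⟨hQ', h1, h2⟩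
          · rw [postB, if_pos rfl]
            exact hev.phi_le.trans (Nat.add_le_add_right
              (Nat.add_le_add (hlow σ K hev.hK) (hlow σ L hev.hL)) _)
          · rw [hb σ Q hQ' h1 h2]; exact hlow σ Q hQ'
        · have h1 : ∑ Q ∈ D.pcs u, D.postB u K L (D.preB u b) σ Q ≤
              ∑ Q ∈ D.pm u, D.preB u b σ Q + D.w * D.cr σ u :=
            hev.sum_le _ (D.preB u b σ) _ (by rw [postB, if_pos rfl])
              fun Q hQ h1 h2 => (hb σ Q hQ h1 h2).le
          have := hsum σ; have := hstep σ; have := hWB σ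
          have : D.w * D.cr σ u ≤ 2 * D.w * D.cr σ u :=
            Nat.mul_le_mul_right _ (Nat.le_mul_of_pos_left _ two_pos)
          omega
      have hcap : ∀ σ, D.Small t σ →
          D.preB u b σ K + D.preB u b σ L + D.w * D.cr σ u ≤ D.k + D.WR σ t := fun σ _ => by
        have h := hWt.cap (σ := σ) hev.mem
        rw [postB, if_pos rfl] at h
        have := D.phi_le_k σ (D.I u) (K ∪ L)
        omega
      have hP := D.pre_stat t hu hS fun σ hσ Q hQ => by
        have h1 := D.phi_le_k σ (D.I u) (K ∪ L)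
        have h2 := hcap σ hσ
        simp only [Small] at hσ
        by_cases hK : Q = K
        · subst hK; omega
        by_cases hL : Q = L
        · subst hL; omega
        have h3 := hWt.cap (σ := σ) (hev.keep Q hQ hK hL).1
        rw [hb σ Q hQ hK hL] at h3
        have := D.phi_le_k σ (D.I u) Q
        omega
      refine ⟨_, _, hWt, D.post_stat t hu hev hP hcap hstrict, fun _ => ⟨K, L, hev, fun σ hσ => ?_⟩⟩
      cases hK : D.preSt u st σ K with
      | none =>
        obtain ⟨s, hs, -⟩ := hP.uni σ hσ K hev.hK hK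
        exact ⟨s, Or.inl hs⟩
      | some o =>
        cases hL : D.preSt u st σ L with
        | none =>
          obtain ⟨s, hs, -⟩ := hP.uni σ hσ L hev.hL hL
          exact ⟨s, Or.inr hs⟩
        | some o' => exact (D.not_both t hev hP hcap hσ hK hL).elim

end Vale.Agent.P061.TW.Dec
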