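import Vale.Agent.P061.TW.Run

/-!
# Bounded treewidth: the potential

For a cut, each piece has potential `k` or the weight of its minority side, whichever is less.
The total gain at a node is paid by the crossed copies.
-/

namespace Vale.Agent.P061.TW.Dec

open Finset Classical

variable {V E : Type} [Fintype V] [Fintype E] (D : Dec V E)

/-- A live vertex weighs `k`, any other the weight of its copies leaving `Q`. -/
noncomputable def wt (L Q : Finset V) (x : V) : ℕ := if x ∈ L then D.k else D.w * D.dg Q x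

theorem wt_of_mem {L : Finset V} {x : V} (h : x ∈ L) (Q : Finset V) : D.wt L Q x = D.k := if_pos h

theorem wt_of_notMem {L : Finset V} {x : V} (h : x ∉ L) (Q : Finset V) :
    D.wt L Q x = D.w * D.dg Q x := if_neg h

/-- The weight of the side `b` of `σ`. -/
noncomputable def side (σ : V → Bool) (b : Bool) (L Q : Finset V) : ℕ :=
  ∑ x ∈ Q.filter (fun x => σ x = b), D.wt L Q x

/-- The potential of a piece. -/
noncomputable def phi (σ : V → Bool) (L Q : Finset V) : ℕ :=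
  min D.k (min (D.side σ true L Q) (D.side σ false L Q))

theorem phi_le_k (σ : V → Bool) (L Q : Finset V) : D.phi σ L Q ≤ D.k := min_le_left _ _

theorem phi_le_side (σ : V → Bool) (b : Bool) (L Q : Finset V) :
    D.phi σ L Q ≤ D.side σ b L Q := by
  refine (min_le_right _ _).trans ?_
  cases b
  · exact min_le_right _ _
  · exact min_le_left _ _

theorem k_le_side {σ : V → Bool} {L Q : Finset V} {x : V} (hQ : x ∈ Q) (hL : x ∈ L) :
    D.k ≤ D.side σ (σ x) L Q := by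
  refine le_trans ?_ (single_le_sum (fun i _ => Nat.zero_le _)
    (mem_filter.2 ⟨hQ, rfl⟩ : x ∈ Q.filter fun z => σ z = σ x))
  rw [D.wt_of_mem hL]

/-- Below `k`, the live vertices agree and the other side is the potential. -/
theorem uniform_of_small {σ : V → Bool} {L Q : Finset V} (h : D.phi σ L Q < D.k) {x : V}
    (hQ : x ∈ Q) (hL : x ∈ L) :
    (∀ z ∈ Q, z ∈ L → σ z = σ x) ∧ D.phi σ L Q = D.side σ (!σ x) L Q := by
  have h1 := D.k_le_side (σ := σ) hQ hL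
  have h2 : D.phi σ L Q = D.side σ (!σ x) L Q := by
    rcases hb : σ x with _ | _ <;> rw [hb] at h1 <;> simp only [Bool.not_false, Bool.not_true] <;>
      simp only [phi] at h ⊢ <;> omega
  refine ⟨fun z hz hzL => ?_, h2⟩
  by_contra hne
  have : D.k ≤ D.side σ (!σ x) L Q := by
    rw [← Bool.eq_not_of_ne hne]; exact D.k_le_side hz hzL
  omega

/-- Making vertices not live does not raise the potential. -/
theorem phi_forget {σ : V → Bool} {L L' Q : Finset V} (h : L' ⊆ L) :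
    D.phi σ L' Q ≤ D.phi σ L Q := by
  have key : ∀ b, D.side σ b L' Q ≤ D.side σ b L Q ∨ D.k ≤ D.side σ b L Q := fun b => by
    by_cases hb : ∃ x ∈ Q, x ∈ L ∧ σ x = b
    · obtain ⟨x, hx, hxL, rfl⟩ := hb
      exact Or.inr (D.k_le_side hx hxL)
    · push Not at hb
      refine Or.inl (sum_le_sum fun x hx => ?_)
      have := mem_filter.1 hx
      have hxL : x ∉ L := fun hh => hb x this.1 hh this.2
      rw [D.wt_of_notMem hxL, D.wt_of_notMem fun hh => hxL (h hh)]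
  have h1 := key true
  have h2 := key false
  simp only [phi]
  omega

/-- The pieces at `c` before its own bundle. -/
noncomputable def pm (c : D.ι) : Finset (Finset V) := (D.bag c).image (D.comp (D.Fm c))

/-- The pieces at `c` after its bundle. -/
noncomputable def pcs (c : D.ι) : Finset (Finset V) := (D.bag c).image (D.comp (D.Fp c))

theorem pm_eq {c : D.ι} {Q : Finset V} (hQ : Q ∈ D.pm c) {x : V} (hx : x ∈ Q) :
    Q = D.comp (D.Fm c) x := by
  obtain ⟨y, -, rfl⟩ := mem_image.1 hQ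
  exact D.comp_eq (D.mem_comp.1 hx)

theorem pcs_eq {c : D.ι} {Q : Finset V} (hQ : Q ∈ D.pcs c) {x : V} (hx : x ∈ Q) :
    Q = D.comp (D.Fp c) x := by
  obtain ⟨y, -, rfl⟩ := mem_image.1 hQ
  exact D.comp_eq (D.mem_comp.1 hx)

theorem pm_sub_Vs {c : D.ι} {Q : Finset V} (hQ : Q ∈ D.pm c) : Q ⊆ D.Vs c := by
  obtain ⟨y, hy, rfl⟩ := mem_image.1 hQ
  exact D.comp_sub (D.Fm_sub c) (D.bag_sub_Vs c hy)

theorem pcs_sub_Vs {c : D.ι} {Q : Finset V} (hQ : Q ∈ D.pcs c) : Q ⊆ D.Vs c := by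
  obtain ⟨y, hy, rfl⟩ := mem_image.1 hQ
  exact D.comp_sub (subset_refl _) (D.bag_sub_Vs c hy)

theorem exists_pcs {c p : D.ι} (hp : D.par c = some p) {x : V} (hx : x ∈ D.Vs c) :
    D.comp (D.Fp c) x ∈ D.pcs c := by
  obtain ⟨y, hy, hxy⟩ := D.meets_post hp hx
  exact mem_image.2 ⟨y, D.I_sub c hy, (D.comp_eq hxy).symm⟩

theorem pcs_port {c p : D.ι} (hp : D.par c = some p) {Q : Finset V} (hQ : Q ∈ D.pcs c) :
    ∃ z ∈ Q, z ∈ D.I c := by
  obtain ⟨y, hy, rfl⟩ := mem_image.1 hQ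
  obtain ⟨z, hz, hyz⟩ := D.meets_post hp (D.bag_sub_Vs c hy)
  exact ⟨z, D.mem_comp.2 hyz, hz⟩

/-- The child pieces inside a piece. -/
noncomputable def parts (c : D.ι) (Q : Finset V) : Finset (Σ _ : D.ι, Finset V) :=
  ((D.kids c).sigma D.pcs).filter fun i => i.2 ⊆ Q

theorem mem_parts {c : D.ι} {Q : Finset V} {i : Σ _ : D.ι, Finset V} :
    i ∈ D.parts c Q ↔ (i.1 ∈ D.kids c ∧ i.2 ∈ D.pcs i.1) ∧ i.2 ⊆ Q := by
  simp [parts, mem_sigma]

theorem parts_par {c : D.ι} {Q : Finset V} {i : Σ _ : D.ι, Finset V} (h : i ∈ D.parts c Q) :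
    D.par i.1 = some c := D.mem_kids.1 (D.mem_parts.1 h).1.1

theorem parts_unique {c : D.ι} {Q : Finset V} {i j : Σ _ : D.ι, Finset V}
    (hi : i ∈ D.parts c Q) (hj : j ∈ D.parts c Q) (h : i.1 = j.1) {x : V} (hxi : x ∈ i.2)
    (hxj : x ∈ j.2) : i = j := by
  obtain ⟨di, Qi⟩ := i
  obtain ⟨dj, Qj⟩ := j
  subst h
  simp only [mem_parts] at hi hj
  rw [D.pcs_eq hi.1.2 hxi, D.pcs_eq hj.1.2 hxj]

theorem comp_part {c d : D.ι} (hd : d ∈ D.kids c) {Q : Finset V} (hQ : Q ∈ D.pm c) {x : V}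
    (hx : x ∈ Q) (hxd : x ∈ D.Vs d) :
    (⟨d, D.comp (D.Fp d) x⟩ : Σ _ : D.ι, Finset V) ∈ D.parts c Q := by
  refine D.mem_parts.2 ⟨⟨hd, D.exists_pcs (D.mem_kids.1 hd) hxd⟩, fun y hy => ?_⟩
  rw [D.pm_eq hQ hx, mem_comp]
  refine (D.mem_comp.1 hy).mono fun g hg => ?_
  rw [Fm_eq]
  exact mem_biUnion.2 ⟨d, hd, hg⟩

theorem part_edge {c : D.ι} {g : E} (hg : g ∈ D.Fm c) {Q : Finset V} (hQ : Q ∈ D.pm c)
    (hf : D.fst g ∈ Q) : ∃ i ∈ D.parts c Q, D.fst g ∈ i.2 ∧ D.snd g ∈ i.2 := by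
  rw [Fm_eq] at hg
  obtain ⟨d, hd, hgd⟩ := mem_biUnion.1 hg
  exact ⟨_, D.comp_part hd hQ hf (D.ends_Vs (D.le_home_Fp hgd)).1, D.self_comp _ _,
    (D.comp_edge hgd).1 (D.self_comp _ _)⟩

theorem exists_part {c : D.ι} {Q : Finset V} (hQ : Q ∈ D.pm c) {x : V} (hx : x ∈ Q)
    (hb : x ∉ D.bag c) : ∃ i ∈ D.parts c Q, x ∈ i.2 ∧ x ∉ D.I i.1 := by
  rcases D.mem_Vs_cases (D.pm_sub_Vs hQ hx) with h | ⟨d, hd, hxd⟩
  · exact absurd h hb
  · exact ⟨_, D.comp_part hd hQ hx hxd, D.self_comp _ _,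
      fun h => hb (D.I_sub_par (D.mem_kids.1 hd) h)⟩

theorem sum_parts_le (c : D.ι) (f : D.ι → Finset V → ℕ) :
    ∑ Q ∈ D.pm c, ∑ i ∈ D.parts c Q, f i.1 i.2 ≤ ∑ d ∈ D.kids c, ∑ Q ∈ D.pcs d, f d Q := by
  rw [← sum_biUnion, sum_sigma' (D.kids c) D.pcs f]
  · exact sum_le_sum_of_subset fun i hi => by
      obtain ⟨Q, -, hi⟩ := mem_biUnion.1 hi
      exact (mem_filter.1 hi).1
  · intro Q hQ Q' hQ' hne
    refine disjoint_left.2 fun i hi hi' => hne ?_
    obtain ⟨z, hz, -⟩ := D.pcs_port (D.parts_par hi) (D.mem_parts.1 hi).1.2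
    rw [D.pm_eq hQ ((D.mem_parts.1 hi).2 hz), D.pm_eq hQ' ((D.mem_parts.1 hi').2 hz)]

theorem pcs_of_empty {c : D.ι} (h : D.B c = ∅) : D.pcs c = D.pm c := by
  rw [pcs, pm, Fp_eq, h, union_empty]

/-- The data of an event: the two merged pieces and their union. -/
structure Ev (c : D.ι) (K L : Finset V) : Prop where
  hK : K ∈ D.pm c
  hL : L ∈ D.pm c
  disj : Disjoint K L
  ne : (D.B c).Nonempty
  heavy : D.k ≤ D.w * (D.B c).card
  between : ∀ g ∈ D.B c, D.fst g ∈ K ∧ D.snd g ∈ L ∨ D.fst g ∈ L ∧ D.snd g ∈ K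
  mem : K ∪ L ∈ D.pcs c
  other : ∀ Q ∈ D.pcs c, Q = K ∪ L ∨ Q ∈ D.pm c ∧ Q ≠ K ∧ Q ≠ L
  keep : ∀ Q ∈ D.pm c, Q ≠ K → Q ≠ L → Q ∈ D.pcs c ∧ Q ≠ K ∪ L
  max : ∀ a ∈ D.bag c, ∀ b ∈ D.bag c, ¬ D.R (D.Fm c) a b →
    (D.bundle c (D.Fm c) (a, b)).card ≤ (D.B c).card

theorem exists_Ev {c : D.ι} (h : (D.B c).Nonempty) : ∃ K L, D.Ev c K L := by
  obtain ⟨x, y, hx, hy, hxy, hB, hb, hmax⟩ := D.event c h
  have hP : D.comp (D.Fp c) x = D.comp (D.Fm c) x ∪ D.comp (D.Fm c) y := by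
    ext z
    simp only [mem_union, mem_comp]
    refine ⟨fun hz => ?_, fun hz => hz.elim (·.mono (D.Fm_sub c))
      fun hz => (D.R_xy hB h).trans (hz.mono (D.Fm_sub c))⟩
    rcases D.R_Fp hB hz with h' | ⟨-, h'⟩
    · exact Or.inl h'
    · exact h'
  refine ⟨_, _, mem_image_of_mem _ hx, mem_image_of_mem _ hy,
    disjoint_left.2 fun z h1 h2 => hxy ((D.mem_comp.1 h1).trans (D.mem_comp.1 h2).symm), h, hb,
    fun g hg => ?_, hP ▸ mem_image_of_mem _ hx, fun Q hQ => ?_, fun Q hQ hQK hQL => ?_,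
    fun a ha b hb' hab => hmax (a, b) (by simp [pairs, ha, hb', hab])⟩
  · rw [hB] at hg
    simp only [bundle, mem_filter, mem_univ, true_and] at hg
    simp only [mem_comp]
    exact hg.2.imp id fun h => ⟨h.2, h.1⟩
  · obtain ⟨z, hz, rfl⟩ := mem_image.1 hQ
    by_cases hzx : D.R (D.Fm c) x z ∨ D.R (D.Fm c) y z
    · refine Or.inl ?_
      rw [← hP]
      rcases hzx with h' | h'
      · exact (D.comp_eq (h'.mono (D.Fm_sub c))).symm
      · exact (D.comp_eq ((D.R_xy hB h).trans (h'.mono (D.Fm_sub c)))).symm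
    · push Not at hzx
      refine Or.inr ?_
      have hQ' : D.comp (D.Fp c) z = D.comp (D.Fm c) z := by
        ext v
        simp only [mem_comp]
        refine ⟨fun hv => ?_, fun hv => hv.mono (D.Fm_sub c)⟩
        rcases D.R_Fp hB hv with h' | ⟨h', -⟩
        · exact h'
        · rcases h' with h' | h'
          · exact absurd h' hzx.1
          · exact absurd h' hzx.2
      rw [hQ']
      exact ⟨mem_image_of_mem _ hz,
        fun e => hzx.1 (D.mem_comp.1 (e ▸ D.self_comp (D.Fm c) z)),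
        fun e => hzx.2 (D.mem_comp.1 (e ▸ D.self_comp (D.Fm c) z))⟩
  · obtain ⟨z, hz, rfl⟩ := mem_image.1 hQ
    have hQ' : D.comp (D.Fp c) z = D.comp (D.Fm c) z := by
      ext v
      simp only [mem_comp]
      refine ⟨fun hv => ?_, fun hv => hv.mono (D.Fm_sub c)⟩
      rcases D.R_Fp hB hv with h' | ⟨h' | h', -⟩
      · exact h'
      · exact absurd (D.comp_eq h').symm hQK
      · exact absurd (D.comp_eq h').symm hQL
    refine ⟨hQ' ▸ mem_image_of_mem _ hz, fun e => ?_⟩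
    have hzm : z ∈ D.comp (D.Fm c) x ∪ D.comp (D.Fm c) y := e ▸ D.self_comp _ z
    rcases mem_union.1 hzm with h' | h'
    · exact hQK (D.comp_eq (D.mem_comp.1 h')).symm
    · exact hQL (D.comp_eq (D.mem_comp.1 h')).symm

variable {D} in
theorem Ev.symm {c : D.ι} {K L : Finset V} (h : D.Ev c K L) : D.Ev c L K where
  hK := h.hL
  hL := h.hK
  disj := h.disj.symm
  ne := h.ne
  heavy := h.heavy
  between g hg := (h.between g hg).symm
  mem := union_comm K L ▸ h.mem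
  other Q hQ := (h.other Q hQ).imp (·.trans (union_comm K L)) fun e => ⟨e.1, e.2.2, e.2.1⟩
  keep Q hQ h1 h2 := by rw [union_comm L K]; exact h.keep Q hQ h2 h1
  max := h.max

variable {D} in
theorem Ev.sum_le {c : D.ι} {K L : Finset V} (hev : D.Ev c K L) (f g : Finset V → ℕ) (a : ℕ)
    (hP : f (K ∪ L) ≤ g K + g L + a)
    (hQ : ∀ Q ∈ D.pm c, Q ≠ K → Q ≠ L → f Q ≤ g Q) :
    ∑ Q ∈ D.pcs c, f Q ≤ ∑ Q ∈ D.pm c, g Q + a := by
  set S := ((D.pm c).erase K).erase L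
  obtain ⟨z, hz⟩ : K.Nonempty := by
    obtain ⟨y, -, rfl⟩ := mem_image.1 hev.hK
    exact ⟨y, D.self_comp _ _⟩
  have hKL : L ≠ K := fun e => disjoint_left.1 hev.disj hz (e ▸ hz)
  have h1 : ∑ Q ∈ D.pm c, g Q = g K + (g L + ∑ Q ∈ S, g Q) := by
    rw [← add_sum_erase _ _ hev.hK,
      ← add_sum_erase _ _ (mem_erase.2 ⟨hKL, hev.hL⟩ : L ∈ (D.pm c).erase K)]
  have h2 : ∑ Q ∈ D.pcs c, f Q ≤ f (K ∪ L) + ∑ Q ∈ S, g Q := by
    rw [← add_sum_erase _ _ hev.mem]
    refine Nat.add_le_add_left (le_trans (sum_le_sum_of_subset (t := S) ?_) ?_) _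
    · intro Q hQ'
      obtain ⟨hne, hQ'⟩ := mem_erase.1 hQ'
      obtain ⟨h1, h2, h3⟩ := (hev.other Q hQ').resolve_left hne
      simp [S, h1, h2, h3]
    · exact sum_le_sum fun Q hQ' => by
        simp only [S, mem_erase] at hQ'
        exact hQ Q hQ'.2.2 hQ'.2.1 hQ'.1
  omega

/-- The total potential after `c`. -/
noncomputable def Phi (σ : V → Bool) (c : D.ι) : ℕ := ∑ Q ∈ D.pcs c, D.phi σ (D.I c) Q

/-- The crossed copies in the bundle of `c`. -/
noncomputable def cr (σ : V → Bool) (c : D.ι) : ℕ :=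
  ((D.B c).filter fun g => σ (D.fst g) ≠ σ (D.snd g)).card

theorem sum_le_cover' {σ : V → Bool} {b : Bool} {c : D.ι} {Q : Finset V} (hQ : Q ∈ D.pm c)
    (hb : ∀ x ∈ Q, σ x = b → x ∈ D.bag c → False) :
    D.side σ b (D.bag c) Q ≤ ∑ i ∈ D.parts c Q, D.side σ b (D.I i.1) i.2 := by
  refine sum_le_cover fun x hx => ?_
  obtain ⟨hxQ, hxs⟩ := mem_filter.1 hx
  have hxb : x ∉ D.bag c := fun h => hb x hxQ hxs h
  obtain ⟨i, hi, hxi, hxI⟩ := D.exists_part hQ hxQ hxb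
  refine ⟨i, hi, mem_filter.2 ⟨hxi, hxs⟩, ?_⟩
  rw [D.wt_of_notMem hxb, D.wt_of_notMem hxI]
  exact Nat.mul_le_mul_left _ (D.dg_anti (D.mem_parts.1 hi).2 x)

theorem parts_uniform {σ : V → Bool} {c : D.ι} {y₀ : V} (hy₀ : y₀ ∈ D.bag c)
    (hsmall : ∀ i ∈ D.parts c (D.comp (D.Fm c) y₀), D.phi σ (D.I i.1) i.2 < D.k) {v : V}
    (hv : v ∈ D.comp (D.Fm c) y₀) :
    (v ∈ D.bag c → σ v = σ y₀) ∧ ∀ i ∈ D.parts c (D.comp (D.Fm c) y₀), v ∈ i.2 →
      ∀ z ∈ i.2, z ∈ D.I i.1 → σ z = σ y₀ := by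
  have hQ : D.comp (D.Fm c) y₀ ∈ D.pm c := mem_image_of_mem _ hy₀
  generalize hQdef : D.comp (D.Fm c) y₀ = Q at hQ hsmall hv ⊢
  let q : V → Prop := fun v => (v ∈ D.bag c → σ v = σ y₀) ∧
    ∀ i ∈ D.parts c Q, v ∈ i.2 → ∀ z ∈ i.2, z ∈ D.I i.1 → σ z = σ y₀
  have sh : ∀ i ∈ D.parts c Q, ∀ j ∈ D.parts c Q, i.1 ≠ j.1 → ∀ v ∈ i.2, v ∈ j.2 →
      v ∈ D.I i.1 := fun i hi j hj hne v hvi hvj =>
    D.mem_I_kids (D.mem_parts.1 hi).1.1 (D.mem_parts.1 hj).1.1 hne
      (D.pcs_sub_Vs (D.mem_parts.1 hi).1.2 hvi) (D.pcs_sub_Vs (D.mem_parts.1 hj).1.2 hvj)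
  have hport : ∀ i ∈ D.parts c Q, ∀ v ∈ i.2,
      (q v ↔ ∀ z ∈ i.2, z ∈ D.I i.1 → σ z = σ y₀) := by
    intro i hi v hv
    refine ⟨fun h => h.2 i hi hv, fun h => ⟨fun hb => h v hv ?_, fun j hj hvj z hz hzI => ?_⟩⟩
    · exact D.mem_I_bag (D.mem_parts.1 hi).1.1 (D.pcs_sub_Vs (D.mem_parts.1 hi).1.2 hv) hb
    · by_cases hd : i.1 = j.1
      · obtain rfl := D.parts_unique hi hj hd hv hvj
        exact h z hz hzI
      · rw [(D.uniform_of_small (hsmall j hj) hvj (sh j hj i hi (Ne.symm hd) v hvj hv)).1 z hz hzI]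
        exact h v hv (sh i hi j hj hd v hv hvj)
  have hq₀ : q y₀ := by
    refine ⟨fun _ => rfl, fun i hi hv z hz hzI => ?_⟩
    exact (D.uniform_of_small (hsmall i hi) hv (D.mem_I_bag (D.mem_parts.1 hi).1.1
      (D.pcs_sub_Vs (D.mem_parts.1 hi).1.2 hv) hy₀)).1 z hz hzI
  refine D.R_induct (D.mem_comp.1 (hQdef ▸ hv)) q (fun g hg hr => ?_) hq₀
  obtain ⟨i, hi, h1, h2⟩ := D.part_edge hg hQ (hQdef ▸ D.mem_comp.2 hr)
  exact (hport i hi _ h1).trans (hport i hi _ h2).symm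

theorem phi_union {σ : V → Bool} {c : D.ι} {Q : Finset V} (hQ : Q ∈ D.pm c) :
    D.phi σ (D.bag c) Q ≤ ∑ i ∈ D.parts c Q, D.phi σ (D.I i.1) i.2 := by
  by_cases hbig : D.k ≤ ∑ i ∈ D.parts c Q, D.phi σ (D.I i.1) i.2
  · exact (D.phi_le_k _ _ _).trans hbig
  have hsmall : ∀ i ∈ D.parts c Q, D.phi σ (D.I i.1) i.2 < D.k := fun i hi => by
    have h := single_le_sum (s := D.parts c Q)
      (f := fun i : (Σ _ : D.ι, Finset V) => D.phi σ (D.I i.1) i.2)
      (fun j _ => Nat.zero_le _) hi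
    exact lt_of_le_of_lt h (not_le.1 hbig)
  obtain ⟨y₀, hy₀, rfl⟩ := mem_image.1 hQ
  have hall := fun v hv => D.parts_uniform (v := v) hy₀ hsmall hv
  refine (D.phi_le_side σ (!σ y₀) _ _).trans ?_
  refine le_trans (D.sum_le_cover' hQ (σ := σ) (b := !σ y₀) fun x hxQ hxs hxb => ?_)
    (sum_le_sum fun i hi => ?_)
  · rw [(hall x hxQ).1 hxb] at hxs; simp at hxs
  · obtain ⟨z, hz, hzI⟩ := D.pcs_port (D.parts_par hi) (D.mem_parts.1 hi).1.2
    rw [(D.uniform_of_small (hsmall i hi) hz hzI).2,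
      (hall z ((D.mem_parts.1 hi).2 hz)).2 i hi hz z hz hzI]

variable {D} in
theorem Ev.phi_le {σ : V → Bool} {c : D.ι} {K L : Finset V} (hev : D.Ev c K L) :
    D.phi σ (D.bag c) (K ∪ L) ≤
      D.phi σ (D.bag c) K + D.phi σ (D.bag c) L + D.w * D.cr σ c := by
  by_cases hbig : D.k ≤ D.phi σ (D.bag c) K + D.phi σ (D.bag c) L
  · have := D.phi_le_k σ (D.bag c) (K ∪ L); omega
  push Not at hbig
  obtain ⟨x, hx, hxK⟩ := mem_image.1 hev.hK
  obtain ⟨y, hy, hyL⟩ := mem_image.1 hev.hL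
  obtain ⟨uK, eK⟩ := D.uniform_of_small (σ := σ) (Q := K) (x := x) (L := D.bag c) (by omega)
    (hxK ▸ D.self_comp _ _) hx
  obtain ⟨uL, eL⟩ := D.uniform_of_small (σ := σ) (Q := L) (x := y) (L := D.bag c) (by omega)
    (hyL ▸ D.self_comp _ _) hy
  by_cases hs : σ x = σ y
  · have h := D.phi_le_side σ (!σ x) (D.bag c) (K ∪ L)
    have h2 : D.side σ (!σ x) (D.bag c) (K ∪ L) ≤
        D.side σ (!σ x) (D.bag c) K + D.side σ (!σ x) (D.bag c) L := by
      simp only [side, filter_union]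
      rw [sum_union (disjoint_filter_filter hev.disj)]
      refine Nat.add_le_add (sum_le_sum fun z hz => ?_) (sum_le_sum fun z hz => ?_) <;>
        simp only [wt] <;> split_ifs
      exacts [le_rfl, Nat.mul_le_mul_left _ (D.dg_anti subset_union_left z), le_rfl,
        Nat.mul_le_mul_left _ (D.dg_anti subset_union_right z)]
    rw [hs] at h2 eK h
    omega
  · set unc := (D.B c).filter fun g => ¬ σ (D.fst g) ≠ σ (D.snd g)
    have hsplit : D.cr σ c + unc.card = (D.B c).card :=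
      card_filter_add_card_filter_not _
    have key : ∀ (M : Finset V) (u : V) (X : Finset E), (∀ z ∈ M, z ∈ D.bag c → σ z = σ u) →
        (∀ g ∈ X, D.fst g ∈ M.filter (fun z => σ z = !σ u) ∧ D.snd g ∉ M ∨
          D.snd g ∈ M.filter (fun z => σ z = !σ u) ∧ D.fst g ∉ M) →
        D.w * X.card ≤ D.side σ (!σ u) (D.bag c) M := by
      intro M u X hu hX
      refine (Nat.mul_le_mul_left _ (D.card_le_sum_dg hX)).trans ?_
      rw [mul_sum]
      refine sum_le_sum fun z hz => le_of_eq ?_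
      rw [D.wt_of_notMem]
      intro hzb
      obtain ⟨hzM, hzs⟩ := mem_filter.1 hz
      rw [hu z hzM hzb] at hzs; simp at hzs
    set X₁ := unc.filter fun g => σ (D.fst g) = !σ x
    set X₂ := unc.filter fun g => ¬ σ (D.fst g) = !σ x
    have hX : X₁.card + X₂.card = unc.card := card_filter_add_card_filter_not _
    have h1 := key K x X₁ uK fun g hg => by
      simp only [X₁, unc, mem_filter, not_not] at hg
      obtain ⟨⟨hg, hgs⟩, hgx⟩ := hg
      rcases hev.between g hg with ⟨a, b⟩ | ⟨a, b⟩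
      · exact Or.inl ⟨mem_filter.2 ⟨a, hgx⟩, fun h => disjoint_left.1 hev.disj h b⟩
      · exact Or.inr ⟨mem_filter.2 ⟨b, hgs ▸ hgx⟩, fun h => disjoint_left.1 hev.disj h a⟩
    have h2 := key L y X₂ uL fun g hg => by
      simp only [X₂, unc, mem_filter, not_not] at hg
      obtain ⟨⟨hg, hgs⟩, hgx⟩ := hg
      have hgy : σ (D.fst g) = !σ y := by
        revert hgx hs; cases σ x <;> cases σ y <;> cases σ (D.fst g) <;> simp
      rcases hev.between g hg with ⟨a, b⟩ | ⟨a, b⟩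
      · exact Or.inr ⟨mem_filter.2 ⟨b, hgs ▸ hgy⟩, fun h => disjoint_left.1 hev.disj a h⟩
      · exact Or.inl ⟨mem_filter.2 ⟨a, hgy⟩, fun h => disjoint_left.1 hev.disj b h⟩
    rw [← eK] at h1
    rw [← eL] at h2
    have h3 := hev.heavy
    rw [← hsplit, ← hX, mul_add, mul_add] at h3
    have := D.phi_le_k σ (D.bag c) (K ∪ L)
    omega

theorem Phi_step (σ : V → Bool) (c : D.ι) :
    D.Phi σ c ≤ ∑ d ∈ D.kids c, D.Phi σ d + D.w * D.cr σ c := by
  have hpre : ∑ Q ∈ D.pm c, D.phi σ (D.bag c) Q ≤ ∑ d ∈ D.kids c, D.Phi σ d :=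
    (sum_le_sum fun Q hQ => D.phi_union hQ).trans
      (D.sum_parts_le c fun d Q => D.phi σ (D.I d) Q)
  rcases (D.B c).eq_empty_or_nonempty with h | h
  · rw [Phi, D.pcs_of_empty h]
    exact ((sum_le_sum fun Q _ => D.phi_forget (D.I_sub c)).trans hpre).trans (Nat.le_add_right _ _)
  · obtain ⟨K, L, hev⟩ := D.exists_Ev h
    refine (hev.sum_le _ (fun Q => D.phi σ (D.bag c) Q) (D.w * D.cr σ c) ?_
      fun Q _ _ _ => D.phi_forget (D.I_sub c)).trans (Nat.add_le_add_right hpre _)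
    exact (D.phi_forget (D.I_sub c)).trans hev.phi_le

/-- The drop of potential at `c`, counting each crossed bundle copy as `2 w`. -/
noncomputable def W (σ : V → Bool) (c : D.ι) : ℕ :=
  ∑ d ∈ D.kids c, D.Phi σ d + 2 * D.w * D.cr σ c - D.Phi σ c

theorem Phi_add_W (σ : V → Bool) (c : D.ι) :
    D.Phi σ c + D.W σ c = ∑ d ∈ D.kids c, D.Phi σ d + 2 * D.w * D.cr σ c := by
  have := D.Phi_step σ c
  simp only [W, mul_assoc]
  omega

theorem cr_le_W (σ : V → Bool) (c : D.ι) : D.w * D.cr σ c ≤ D.W σ c := by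
  have := D.Phi_step σ c
  simp only [W, mul_assoc]
  omega

theorem sum_W (σ : V → Bool) :
    ∑ c, D.W σ c ≤
      2 * D.w * (univ.filter fun g => σ (D.fst g) ≠ σ (D.snd g)).card := by
  have h1 : ∑ c, ∑ d ∈ D.kids c, D.Phi σ d ≤ ∑ d, D.Phi σ d := by
    rw [← sum_biUnion]
    · exact sum_le_sum_of_subset (subset_univ _)
    · intro a _ b _ hab
      refine disjoint_left.2 fun d hd hd' => hab ?_
      rw [mem_kids] at hd hd'
      exact Option.some.inj (hd.symm.trans hd')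
  have h2 : ∑ c, D.cr σ c ≤ (univ.filter fun g => σ (D.fst g) ≠ σ (D.snd g)).card := by
    simp only [cr]
    rw [← card_biUnion fun a _ b _ hab => disjoint_filter_filter (D.B_disjoint hab)]
    exact card_le_card fun g hg => by
      obtain ⟨c, -, hg⟩ := mem_biUnion.1 hg
      simp [(mem_filter.1 hg).2]
  have h3 : ∑ c, D.Phi σ c + ∑ c, D.W σ c =
      ∑ c, ∑ d ∈ D.kids c, D.Phi σ d + 2 * D.w * ∑ c, D.cr σ c := by
    rw [← sum_add_distrib, mul_sum, ← sum_add_distrib]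
    exact sum_congr rfl fun c _ => D.Phi_add_W σ c
  have h4 := Nat.mul_le_mul_left (2 * D.w) h2
  omega

/-- The part of the subtree of `t` that its bundle spans. -/
noncomputable def span (t : D.ι) : Finset D.ι :=
  univ.filter fun u => D.Le u t ∧ ∃ g ∈ D.B t, D.Le (D.home g) u

theorem mem_span {t u : D.ι} :
    u ∈ D.span t ↔ D.Le u t ∧ ∃ g ∈ D.B t, D.Le (D.home g) u := by simp [span]

/-- The drop of potential over the span of `t`. -/
noncomputable def WR (σ : V → Bool) (t : D.ι) : ℕ := ∑ u ∈ D.span t, D.W σ u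

theorem span_cls {t u : D.ι} (h : u ∈ D.span t) :
    D.cls (D.bag u) (D.Fp t) < D.cls (D.bag u) (D.Fm t) := by
  obtain ⟨hut, g, hg, hgu⟩ := D.mem_span.1 h
  obtain ⟨a, ha, hfa⟩ := D.meets_pre (D.ends_Vs hgu).1
  obtain ⟨b, hb, hsb⟩ := D.meets_pre (D.ends_Vs hgu).2
  have hsub : D.Fm u ⊆ D.Fm t := by
    by_cases he : u = t
    · rw [he]
    · exact (D.Fm_sub u).trans (D.Fp_sub_Fm hut he)
  refine D.cls_lt (D.Fm_sub t) ha hb (fun hab => D.sep_B hg ?_) ?_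
  · exact ((hfa.mono hsub).trans hab).trans (hsb.mono hsub).symm
  · exact (((hfa.mono hsub).symm.mono (D.Fm_sub t)).trans
      (D.R_edge (by rw [Fp_eq]; exact mem_union_right _ hg))).trans
        ((hsb.mono hsub).mono (D.Fm_sub t))

/-- Each node lies in at most `w` spans. -/
theorem card_span_le (u : D.ι) : (univ.filter fun t => u ∈ D.span t).card ≤ D.w := by
  refine (card_le_card_of_injOn (t := range D.w) (fun t => D.cls (D.bag u) (D.Fp t))
    (fun t ht => ?_) fun t ht t' ht' he => ?_).trans (card_range _).le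
  · have h1 := D.span_cls (mem_filter.1 ht).2
    have h2 : D.cls (D.bag u) (D.Fm t) ≤ D.w := card_image_le.trans (D.card_bag u)
    simp only [coe_range, Set.mem_Iio]
    omega
  · have key : ∀ a b, u ∈ D.span b → D.Le a b → a ≠ b →
        D.cls (D.bag u) (D.Fp b) < D.cls (D.bag u) (D.Fp a) := fun a b hb hle hne =>
      lt_of_lt_of_le (D.span_cls hb) (D.cls_mono (D.Fp_sub_Fm hle hne))
    have ha := (mem_filter.1 ht).2
    have hb := (mem_filter.1 ht').2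
    by_contra hne
    rcases D.comparable (D.mem_span.1 ha).1 (D.mem_span.1 hb).1 with h | h
    · exact absurd he (key t t' hb h hne).ne'
    · exact absurd he (key t' t ha h (Ne.symm hne)).ne

theorem sum_WR (σ : V → Bool) :
    ∑ t, D.WR σ t ≤
      2 * D.w * D.w * (univ.filter fun g => σ (D.fst g) ≠ σ (D.snd g)).card := by
  calc ∑ t, D.WR σ t = ∑ u, (univ.filter fun t => u ∈ D.span t).card * D.W σ u := by
        simp only [WR, card_filter, sum_mul]
        rw [sum_comm]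
        refine sum_congr rfl fun t _ => ?_
        simp [sum_ite_mem]
    _ ≤ ∑ u, D.w * D.W σ u := sum_le_sum fun u _ => Nat.mul_le_mul_right _ (D.card_span_le u)
    _ = D.w * ∑ u, D.W σ u := (mul_sum _ _ _).symm
    _ ≤ _ := (Nat.mul_le_mul_left _ (D.sum_W σ)).trans_eq (by ring)

end Vale.Agent.P061.TW.Dec
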