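import Vale.Agent.P061.TW.Base

/-!
# Bounded treewidth: the bundles

Bottom-up, a node takes the heaviest bundle between two pieces meeting its bag if it has at least
`k / w` copies. At the end everything is connected.
-/

namespace Vale.Agent.P061.TW.Dec

open Finset Classical

variable {V E : Type} [Fintype V] [Fintype E] (D : Dec V E)

/-- Copies with home below `c` between the pieces of `x` and `y`. -/
noncomputable def bundle (c : D.ι) (F : Finset E) (p : V × V) : Finset E :=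
  univ.filter fun g => D.Le (D.home g) c ∧
    (D.R F p.1 (D.fst g) ∧ D.R F p.2 (D.snd g) ∨ D.R F p.1 (D.snd g) ∧ D.R F p.2 (D.fst g))

/-- The pairs of bag vertices in different pieces. -/
noncomputable def pairs (c : D.ι) (F : Finset E) : Finset (V × V) :=
  (D.bag c ×ˢ D.bag c).filter fun p => ¬ D.R F p.1 p.2

/-- The bundle chosen at `c`. -/
noncomputable def pick (c : D.ι) (F : Finset E) : Finset E :=
  if h : (D.pairs c F).Nonempty then
    let p := (exists_max_image (D.pairs c F) (fun p => (D.bundle c F p).card) h).choose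
    if D.k ≤ D.w * (D.bundle c F p).card then D.bundle c F p else ∅
  else ∅

/-- The chosen bundles. -/
noncomputable def B (c : D.ι) : Finset E :=
  D.pick c ((univ.filter fun u => D.Le u c ∧ u ≠ c).attach.biUnion fun u => B u.1)
termination_by D.ht c
decreasing_by
  have := (mem_filter.1 u.2).2
  exact D.ht_lt_of this.1 this.2

/-- The bundles strictly below `c`. -/
noncomputable def Fm (c : D.ι) : Finset E :=
  (univ.filter fun u => D.Le u c ∧ u ≠ c).biUnion D.B

/-- The bundles at and below `c`. -/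
noncomputable def Fp (c : D.ι) : Finset E := (D.below c).biUnion D.B

theorem B_eq (c : D.ι) : D.B c = D.pick c (D.Fm c) := by
  rw [B]
  congr 1
  ext g; simp [Fm]

theorem B_cases (c : D.ι) :
    (D.B c = ∅ ∧ ∀ p ∈ D.pairs c (D.Fm c), D.w * (D.bundle c (D.Fm c) p).card < D.k) ∨
      ∃ x y, x ∈ D.bag c ∧ y ∈ D.bag c ∧ ¬ D.R (D.Fm c) x y ∧
        D.B c = D.bundle c (D.Fm c) (x, y) ∧ D.k ≤ D.w * (D.B c).card ∧
        ∀ p ∈ D.pairs c (D.Fm c), (D.bundle c (D.Fm c) p).card ≤ (D.B c).card := by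
  rw [B_eq, pick]
  by_cases h : (D.pairs c (D.Fm c)).Nonempty
  · rw [dif_pos h]
    set h' := exists_max_image (D.pairs c (D.Fm c)) (fun p => (D.bundle c (D.Fm c) p).card) h
    obtain ⟨hp, hmax⟩ := h'.choose_spec
    dsimp only
    generalize h'.choose = q at hp hmax ⊢
    by_cases hb : D.k ≤ D.w * (D.bundle c (D.Fm c) q).card
    · rw [if_pos hb]
      have hp' := hp
      simp only [pairs, mem_filter, mem_product] at hp'
      exact Or.inr ⟨q.1, q.2, hp'.1.1, hp'.1.2, hp'.2, rfl, hb, hmax⟩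
    · rw [if_neg hb]
      exact Or.inl ⟨rfl, fun p hq => lt_of_le_of_lt (Nat.mul_le_mul_left _ (hmax p hq))
        (not_le.1 hb)⟩
  · rw [dif_neg h]
    exact Or.inl ⟨rfl, fun p hp => absurd ⟨p, hp⟩ h⟩

theorem event (c : D.ι) (h : (D.B c).Nonempty) :
    ∃ x y, x ∈ D.bag c ∧ y ∈ D.bag c ∧ ¬ D.R (D.Fm c) x y ∧
      D.B c = D.bundle c (D.Fm c) (x, y) ∧ D.k ≤ D.w * (D.B c).card ∧
      ∀ p ∈ D.pairs c (D.Fm c), (D.bundle c (D.Fm c) p).card ≤ (D.B c).card :=
  (D.B_cases c).resolve_left fun h' => by simp [h'.1] at h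

theorem le_home_B {c : D.ι} {g : E} (h : g ∈ D.B c) : D.Le (D.home g) c := by
  obtain ⟨x, y, -, -, -, hB, -⟩ := D.event c ⟨g, h⟩
  rw [hB] at h
  exact (mem_filter.1 h).2.1

theorem Fp_eq (c : D.ι) : D.Fp c = D.Fm c ∪ D.B c := by
  ext g
  simp only [Fp, Fm, mem_biUnion, mem_below, mem_union, mem_filter, mem_univ, true_and]
  constructor
  · rintro ⟨u, hu, hg⟩
    by_cases h : u = c
    · exact Or.inr (h ▸ hg)
    · exact Or.inl ⟨u, ⟨hu, h⟩, hg⟩
  · rintro (⟨u, ⟨hu, -⟩, hg⟩ | hg)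
    · exact ⟨u, hu, hg⟩
    · exact ⟨c, D.le_refl c, hg⟩

theorem Fm_eq (c : D.ι) : D.Fm c = (D.kids c).biUnion D.Fp := by
  ext g
  simp only [Fp, Fm, mem_biUnion, mem_below, mem_filter, mem_univ, true_and, mem_kids]
  constructor
  · rintro ⟨u, ⟨hu, hne⟩, hg⟩
    obtain ⟨d, hd, hud⟩ := D.exists_child hu hne
    exact ⟨d, hd, u, hud, hg⟩
  · rintro ⟨d, hd, u, hud, hg⟩
    exact ⟨u, ⟨hud.trans (D.le_par hd), fun h => D.not_le_child hd (h ▸ hud)⟩, hg⟩

theorem Fm_sub (c : D.ι) : D.Fm c ⊆ D.Fp c := by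
  rw [Fp_eq]; exact subset_union_left

theorem Fp_sub_Fm {u c : D.ι} (h : D.Le u c) (hne : u ≠ c) : D.Fp u ⊆ D.Fm c := by
  obtain ⟨d, hd, hud⟩ := D.exists_child h hne
  rw [Fm_eq]
  intro g hg
  simp only [Fp, mem_biUnion, mem_below] at hg
  obtain ⟨v, hv, hg⟩ := hg
  exact mem_biUnion.2 ⟨d, D.mem_kids.2 hd, mem_biUnion.2 ⟨v, by simpa using hv.trans hud, hg⟩⟩

theorem le_home_Fp {c : D.ι} {g : E} (h : g ∈ D.Fp c) : D.Le (D.home g) c := by
  simp only [Fp, mem_biUnion, mem_below] at h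
  obtain ⟨u, hu, hg⟩ := h
  exact (D.le_home_B hg).trans hu

theorem comp_sub {c : D.ι} {F : Finset E} (hF : F ⊆ D.Fp c) {x : V} (hx : x ∈ D.Vs c) :
    D.comp F x ⊆ D.Vs c := fun _ hy =>
  D.R_induct (D.mem_comp.1 hy) (fun v => v ∈ D.Vs c)
    (fun _ hg _ => iff_of_true (D.ends_Vs (D.le_home_Fp (hF hg))).1
      (D.ends_Vs (D.le_home_Fp (hF hg))).2) hx

/-- How the pieces change at an event. -/
theorem R_Fp {c : D.ι} {x y : V}
    (hB : D.B c = D.bundle c (D.Fm c) (x, y)) {u v : V} (h : D.R (D.Fp c) u v) :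
    D.R (D.Fm c) u v ∨ (D.R (D.Fm c) x u ∨ D.R (D.Fm c) y u) ∧
      (D.R (D.Fm c) x v ∨ D.R (D.Fm c) y v) := by
  refine D.R_induct h (fun v => D.R (D.Fm c) u v ∨ (D.R (D.Fm c) x u ∨ D.R (D.Fm c) y u) ∧
    (D.R (D.Fm c) x v ∨ D.R (D.Fm c) y v)) (fun g hg _ => ?_) (Or.inl (D.R_refl _ _))
  rw [Fp_eq, mem_union] at hg
  rcases hg with hg | hg
  · have e := D.R_edge hg
    constructor <;> rintro (a | ⟨a, b⟩)
    · exact Or.inl (a.trans e)
    · exact Or.inr ⟨a, b.imp (·.trans e) (·.trans e)⟩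
    · exact Or.inl (a.trans e.symm)
    · exact Or.inr ⟨a, b.imp (·.trans e.symm) (·.trans e.symm)⟩
  · rw [hB] at hg
    rcases (mem_filter.1 hg).2.2 with ⟨a, b⟩ | ⟨a, b⟩ <;> constructor <;>
      rintro (h1 | ⟨h1, -⟩)
    · exact Or.inr ⟨Or.inl (a.trans h1.symm), Or.inr b⟩
    · exact Or.inr ⟨h1, Or.inr b⟩
    · exact Or.inr ⟨Or.inr (b.trans h1.symm), Or.inl a⟩
    · exact Or.inr ⟨h1, Or.inl a⟩
    · exact Or.inr ⟨Or.inr (b.trans h1.symm), Or.inl a⟩
    · exact Or.inr ⟨h1, Or.inl a⟩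
    · exact Or.inr ⟨Or.inl (a.trans h1.symm), Or.inr b⟩
    · exact Or.inr ⟨h1, Or.inr b⟩

theorem R_xy {c : D.ι} {x y : V} (hB : D.B c = D.bundle c (D.Fm c) (x, y))
    (h : (D.B c).Nonempty) : D.R (D.Fp c) x y := by
  obtain ⟨g, hg⟩ := h
  have e : D.R (D.Fp c) (D.fst g) (D.snd g) :=
    D.R_edge (by rw [Fp_eq]; exact mem_union_right _ hg)
  rw [hB] at hg
  rcases (mem_filter.1 hg).2.2 with ⟨a, b⟩ | ⟨a, b⟩
  · exact ((a.mono (D.Fm_sub c)).trans e).trans (b.mono (D.Fm_sub c)).symm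
  · exact ((a.mono (D.Fm_sub c)).trans e.symm).trans (b.mono (D.Fm_sub c)).symm

theorem sep_B {c : D.ι} {g : E} (hg : g ∈ D.B c) : ¬ D.R (D.Fm c) (D.fst g) (D.snd g) := by
  obtain ⟨x, y, -, -, hxy, hB, -⟩ := D.event c ⟨g, hg⟩
  rw [hB] at hg
  intro h
  rcases (mem_filter.1 hg).2.2 with ⟨a, b⟩ | ⟨a, b⟩
  · exact hxy ((a.trans h).trans b.symm)
  · exact hxy ((a.trans h.symm).trans b.symm)

theorem B_disjoint {t u : D.ι} (h : t ≠ u) : Disjoint (D.B t) (D.B u) := by
  refine disjoint_left.2 fun g ht hu => ?_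
  have key : ∀ a b, g ∈ D.B a → g ∈ D.B b → D.Le a b → a ≠ b → False := fun a b ha hb hle hne =>
    D.sep_B hb (D.R_edge (D.Fp_sub_Fm hle hne (by rw [Fp_eq]; exact mem_union_right _ ha)))
  rcases D.comparable (D.le_home_B ht) (D.le_home_B hu) with h' | h'
  · exact key t u ht hu h' h
  · exact key u t hu ht h' h.symm

/-- The number of pieces meeting `S`. -/
noncomputable def cls (S : Finset V) (F : Finset E) : ℕ := (S.image (D.comp F)).card

theorem cls_mono {S : Finset V} {F F' : Finset E} (h : F ⊆ F') : D.cls S F' ≤ D.cls S F := by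
  by_cases hS : S.Nonempty
  · have : Nonempty V := ⟨hS.choose⟩
    refine card_le_card_of_surjOn (fun Q => D.comp F' (Classical.epsilon (· ∈ Q))) ?_
    intro P hP
    obtain ⟨x, hx, rfl⟩ := mem_image.1 (mem_coe.1 hP)
    refine ⟨D.comp F x, mem_coe.2 (mem_image_of_mem _ hx), ?_⟩
    have := Classical.epsilon_spec (p := fun v => v ∈ D.comp F x) ⟨x, D.self_comp F x⟩
    exact (D.comp_eq ((D.mem_comp.1 this).mono h)).symm
  · rw [not_nonempty_iff_eq_empty.1 hS]; simp [cls]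

theorem cls_lt {S : Finset V} {F F' : Finset E} (h : F ⊆ F') {a b : V} (ha : a ∈ S) (hb : b ∈ S)
    (hab : ¬ D.R F a b) (hab' : D.R F' a b) : D.cls S F' < D.cls S F := by
  have : Nonempty V := ⟨a⟩
  let f : Finset V → Finset V := fun Q => D.comp F' (Classical.epsilon (· ∈ Q))
  have hf : ∀ x, f (D.comp F x) = D.comp F' x := fun x => by
    have := Classical.epsilon_spec (p := fun v => v ∈ D.comp F x) ⟨x, D.self_comp F x⟩
    exact (D.comp_eq ((D.mem_comp.1 this).mono h)).symm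
  have himg : S.image (D.comp F') = (S.image (D.comp F)).image f := by
    rw [image_image]; exact image_congr fun x _ => (hf x).symm
  rw [cls, cls, himg]
  refine lt_of_le_of_ne card_image_le fun hq => ?_
  have hinj := card_image_iff.1 hq
  have := hinj (mem_coe.2 (mem_image_of_mem _ ha)) (mem_coe.2 (mem_image_of_mem _ hb))
    (by rw [hf, hf]; exact D.comp_eq hab')
  exact hab (D.mem_comp.1 (this ▸ D.self_comp F b))

theorem cls_pos {S : Finset V} (h : S.Nonempty) (F : Finset E) : 1 ≤ D.cls S F :=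
  card_pos.2 (h.image _)

theorem done_or_drop (n : ℕ) : ∀ c, D.rk c = n →
    D.B c = ∅ ∨ D.cls (D.bag c) (D.Fp c) + n + 1 ≤ (D.bag c).card := by
  induction n with
  | zero =>
    intro c _
    refine (D.B c).eq_empty_or_nonempty.imp id fun h => ?_
    obtain ⟨x, y, hx, hy, hxy, hB, -⟩ := D.event c h
    have := D.cls_lt (D.Fm_sub c) hx hy hxy (D.R_xy hB h)
    have : D.cls (D.bag c) (D.Fm c) ≤ (D.bag c).card := card_image_le
    omega
  | succ n ih =>
    intro c hc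
    obtain ⟨c', hkid, hc', hbag, hhome⟩ := D.rk_step c n hc
    have hk : D.kids c = {c'} := by ext d; simp [hkid]
    have hF : D.Fm c = D.Fp c' := by rw [Fm_eq, hk, singleton_biUnion]
    rcases ih c' hc' with h | h
    · refine Or.inl ?_
      rcases D.B_cases c with h1 | ⟨x, y, hx, hy, hxy, hB, hb, -⟩
      · exact h1.1
      exfalso
      have hFF : D.Fm c = D.Fm c' := by rw [hF, Fp_eq, h, union_empty]
      rw [hFF] at hxy hB
      rcases D.B_cases c' with ⟨-, h2⟩ | ⟨_, _, -, -, -, -, hb', -⟩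
      · have := h2 (x, y) (by simp [pairs, hbag, hx, hy, hxy])
        refine absurd hb (not_le.2 (lt_of_le_of_lt (Nat.mul_le_mul_left _ ?_) this))
        rw [hB]
        refine card_le_card fun g hg => ?_
        simp only [bundle, mem_filter, mem_univ, true_and] at hg ⊢
        obtain ⟨d, hd, hgd⟩ := D.exists_child hg.1 (hhome g)
        rw [(hkid d).1 hd] at hgd
        exact ⟨hgd, hg.2⟩
      · rw [h, card_empty, mul_zero] at hb'
        exact absurd hb' (not_le.2 D.hk)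
    · rw [← hF, hbag] at h
      refine (D.B c).eq_empty_or_nonempty.imp id fun he => ?_
      obtain ⟨x, y, hx, hy, hxy, hB, -⟩ := D.event c he
      have := D.cls_lt (D.Fm_sub c) hx hy hxy (D.R_xy hB he)
      omega

theorem last_empty {c : D.ι} (h : D.rk c + 1 = D.w) : D.B c = ∅ := by
  rcases D.done_or_drop _ c rfl with h' | h'
  · exact h'
  · have := D.cls_pos ⟨_, D.v₀_mem c⟩ (D.Fp c)
    have := D.card_bag c
    omega

theorem I_eq_bag {c : D.ι} (h : D.rk c + 1 ≠ D.w) : D.I c = D.bag c := by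
  obtain ⟨p, hp, hsub⟩ := D.rk_last c h
  refine subset_antisymm (D.I_sub c) fun x hx => ?_
  simp [I, hx, hp, hsub hx]

theorem event_I {c : D.ι} (h : (D.B c).Nonempty) : D.I c = D.bag c :=
  D.I_eq_bag fun h' => by simp [D.last_empty h'] at h

/-- A piece without bundle must reach the rest of the graph. -/
theorem cut_absurd {c : D.ι}
    (hpre : ∀ x ∈ D.Vs c, ∃ y ∈ D.bag c, D.R (D.Fm c) x y) (hB : D.B c = ∅) {y₀ : V}
    (hy₀ : y₀ ∈ D.bag c) (hQI : ∀ z ∈ D.I c, ¬ D.R (D.Fm c) y₀ z)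
    (hne : ∃ z, ¬ D.R (D.Fm c) y₀ z) : False := by
  set Q := D.comp (D.Fm c) y₀ with hQ
  set T := (D.bag c).filter fun y => ¬ D.R (D.Fm c) y₀ y with hT
  have hsmall : ∀ y ∈ T, D.w * (D.bundle c (D.Fm c) (y₀, y)).card + 1 ≤ D.k := by
    intro y hy
    rcases D.B_cases c with ⟨-, h⟩ | ⟨x, y', -, -, -, -, hb, -⟩
    · exact h (y₀, y) (by simp only [pairs, mem_filter, mem_product]
                          exact ⟨⟨hy₀, (mem_filter.1 hy).1⟩, (mem_filter.1 hy).2⟩)
    · rw [hB, card_empty, mul_zero] at hb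
      exact absurd hb (not_le.2 D.hk)
  have hcut := D.conn Q ⟨y₀, D.self_comp _ _⟩ fun h => by
    obtain ⟨z, hz⟩ := hne
    exact hz (D.mem_comp.1 ((h ▸ mem_univ z : z ∈ Q)))
  have hsub : (univ.filter fun g => ¬ (D.fst g ∈ Q ↔ D.snd g ∈ Q)) ⊆
      T.biUnion fun y => D.bundle c (D.Fm c) (y₀, y) := by
    intro g hg
    have inner : ∀ a b, (a = D.fst g ∧ b = D.snd g ∨ a = D.snd g ∧ b = D.fst g) → a ∈ Q →
        b ∉ Q → g ∈ T.biUnion fun y => D.bundle c (D.Fm c) (y₀, y) := by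
      intro a b hab ha hb
      have hle : D.Le (D.home g) c :=
        D.le_home (x := a) (by rcases hab with ⟨h, -⟩ | ⟨h, -⟩ <;> simp [h])
          (D.comp_sub (D.Fm_sub c) (D.bag_sub_Vs c hy₀) ha)
          (fun h => hQI a h (D.mem_comp.1 ha))
      obtain ⟨y, hy, hby⟩ := hpre b (by
        rcases hab with ⟨-, h⟩ | ⟨-, h⟩ <;> rw [h]
        exacts [(D.ends_Vs hle).2, (D.ends_Vs hle).1])
      refine mem_biUnion.2 ⟨y, mem_filter.2 ⟨hy,
        fun h => hb (D.mem_comp.2 (h.trans hby.symm))⟩, mem_filter.2 ⟨mem_univ _, hle, ?_⟩⟩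
      rcases hab with ⟨h1, h2⟩ | ⟨h1, h2⟩
      · exact Or.inl ⟨h1 ▸ D.mem_comp.1 ha, h2 ▸ hby.symm⟩
      · exact Or.inr ⟨h1 ▸ D.mem_comp.1 ha, h2 ▸ hby.symm⟩
    have hg' := (mem_filter.1 hg).2
    by_cases hf : D.fst g ∈ Q
    · exact inner _ _ (Or.inl ⟨rfl, rfl⟩) hf fun h => hg' (iff_of_true hf h)
    · exact inner _ _ (Or.inr ⟨rfl, rfl⟩) (by
        by_contra h; exact hg' (iff_of_false hf h)) hf
  have h1 : D.k ≤ ∑ y ∈ T, (D.bundle c (D.Fm c) (y₀, y)).card :=
    hcut.trans ((card_le_card hsub).trans card_biUnion_le)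
  have h2 : T.card ≤ D.w := (card_filter_le _ _).trans (D.card_bag c)
  have h3 : ∑ y ∈ T, (D.w * (D.bundle c (D.Fm c) (y₀, y)).card + 1) ≤ T.card * D.k := by
    simpa using sum_le_card_nsmul T _ _ hsmall
  rw [sum_add_distrib, ← mul_sum, sum_const, smul_eq_mul, mul_one] at h3
  have h4 := Nat.mul_le_mul_left D.w h1
  have h5 := Nat.mul_le_mul_right D.k h2
  have : T.Nonempty := by
    by_contra h
    rw [not_nonempty_iff_eq_empty] at h
    rw [h, sum_empty] at h1
    exact absurd h1 (not_le.2 D.hk)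
  have := card_pos.2 this
  omega

theorem meets_aux (n : ℕ) : ∀ c, D.ht c < n →
    (∀ x ∈ D.Vs c, ∃ y ∈ D.bag c, D.R (D.Fm c) x y) ∧
      ∀ p, D.par c = some p → ∀ x ∈ D.Vs c, ∃ y ∈ D.I c, D.R (D.Fp c) x y := by
  induction n with
  | zero => intro c h; omega
  | succ n ih =>
    intro c hc
    have hpre : ∀ x ∈ D.Vs c, ∃ y ∈ D.bag c, D.R (D.Fm c) x y := by
      intro x hx
      rcases D.mem_Vs_cases hx with h | ⟨d, hd, hxd⟩
      · exact ⟨x, h, D.R_refl _ _⟩
      · have hd' := D.mem_kids.1 hd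
        obtain ⟨y, hy, hxy⟩ := (ih d (by have := D.ht_lt d c hd'; omega)).2 c hd' x hxd
        exact ⟨y, D.I_sub_par hd' hy, hxy.mono fun g hg => by
          rw [Fm_eq]; exact mem_biUnion.2 ⟨d, hd, hg⟩⟩
    refine ⟨hpre, fun p hp x hx => ?_⟩
    obtain ⟨y, hy, hxy⟩ := hpre x hx
    by_cases h : D.rk c + 1 = D.w
    · have hB := D.last_empty h
      by_cases hz : ∃ z ∈ D.I c, D.R (D.Fm c) y z
      · obtain ⟨z, hz, hyz⟩ := hz
        exact ⟨z, hz, (hxy.trans hyz).mono (D.Fm_sub c)⟩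
      · push Not at hz
        exact (D.cut_absurd hpre hB hy hz ⟨_, hz _ (D.v₀_mem_I hp)⟩).elim
    · exact ⟨y, by rw [D.I_eq_bag h]; exact hy, hxy.mono (D.Fm_sub c)⟩

theorem meets_pre {c : D.ι} {x : V} (hx : x ∈ D.Vs c) : ∃ y ∈ D.bag c, D.R (D.Fm c) x y :=
  (D.meets_aux (D.ht c + 1) c (Nat.lt_succ_self _)).1 x hx

theorem meets_post {c p : D.ι} (hp : D.par c = some p) {x : V} (hx : x ∈ D.Vs c) :
    ∃ y ∈ D.I c, D.R (D.Fp c) x y :=
  (D.meets_aux (D.ht c + 1) c (Nat.lt_succ_self _)).2 p hp x hx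

/-- All bundles together connect the graph. -/
theorem connected_root (x y : V) : D.R (D.Fp D.root) x y := by
  have hroot : ∀ p, D.par D.root ≠ some p := fun p hp =>
    D.not_le_child hp (D.le_root p)
  have hw : D.rk D.root + 1 = D.w := by
    by_contra h
    obtain ⟨p, hp, -⟩ := D.rk_last _ h
    exact hroot p hp
  have key : ∀ z, D.R (D.Fm D.root) D.v₀ z := by
    by_contra h
    push Not at h
    refine D.cut_absurd (fun x hx => D.meets_pre hx) (D.last_empty hw) (D.v₀_mem D.root)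
      (fun z hz => ?_) h
    simp [I, hroot] at hz
  exact ((key x).symm.trans (key y)).mono (D.Fm_sub _)

/-- One copy from each bundle connects as much as all of them. -/
theorem R_sel (sel : D.ι → E) (hsel : ∀ c, (D.B c).Nonempty → sel c ∈ D.B c) (n : ℕ) :
    ∀ c, D.ht c < n → ∀ g ∈ D.Fp c,
      D.R (((D.below c).filter fun u => (D.B u).Nonempty).image sel) (D.fst g) (D.snd g) := by
  induction n with
  | zero => intro c h; omega
  | succ n ih =>
    intro c hc g hg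
    set T := ((D.below c).filter fun u => (D.B u).Nonempty).image sel with hT
    have hm : ∀ g ∈ D.Fm c, D.R T (D.fst g) (D.snd g) := by
      intro g hg
      rw [Fm_eq] at hg
      obtain ⟨d, hd, hgd⟩ := mem_biUnion.1 hg
      have hd' := D.mem_kids.1 hd
      refine (ih d (by have := D.ht_lt d c hd'; omega) g hgd).mono (image_subset_image ?_)
      exact filter_subset_filter _ fun u hu => D.mem_below.2 ((D.mem_below.1 hu).trans (D.le_par hd'))
    rw [Fp_eq, mem_union] at hg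
    rcases hg with hg | hg
    · exact hm g hg
    obtain ⟨x, y, -, -, -, hB, -⟩ := D.event c ⟨g, hg⟩
    have up : ∀ {a b}, D.R (D.Fm c) a b → D.R T a b := fun h => D.R_of_edges hm h
    have he := hsel c ⟨g, hg⟩
    have hsT : sel c ∈ T := mem_image_of_mem _ (mem_filter.2 ⟨D.mem_below.2 (D.le_refl c), g, hg⟩)
    have e := D.R_edge hsT
    have hxy : D.R T x y := by
      rw [hB] at he
      rcases (mem_filter.1 he).2.2 with ⟨a, b⟩ | ⟨a, b⟩
      · exact ((up a).trans e).trans (up b).symm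
      · exact ((up a).trans e.symm).trans (up b).symm
    rw [hB] at hg
    rcases (mem_filter.1 hg).2.2 with ⟨a, b⟩ | ⟨a, b⟩
    · exact ((up a).symm.trans hxy).trans (up b)
    · exact (((up a).symm.trans hxy).trans (up b)).symm

end Vale.Agent.P061.TW.Dec
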